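import Vale.Agent.P092.H464.Pv

/-!
P092 (helper673), TEAM N: the bounded Borel functional calculus of a finitely additive
projection valued measure `Pv P` (helper464).  `bor P f = ∫ f dP` for bounded measurable
`f : X → ℂ`; it is a *-homomorphism, norm contractive on every measurable set, local
(`bor P f * P A` depends only on `f` on `A`).
-/

set_option linter.unusedSectionVars false

namespace Vale.Agent.P092.H673.Bor

open MeasureTheory Vale.Agent.P092.H464
open scoped InnerProductSpace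

variable {K : Type*} [NormedAddCommGroup K] [InnerProductSpace ℂ K] [CompleteSpace K]
variable {X : Type*} [MeasurableSpace X] {P : Set X → (K →L[ℂ] K)}

/-- bounded measurable functions -/
def BM (f : X → ℂ) : Prop := Measurable f ∧ ∃ C : ℝ, ∀ x, ‖f x‖ ≤ C

/-- oscillation on a set -/
def Osc (f : X → ℂ) (δ : ℝ) (B : Set X) : Prop := ∀ x ∈ B, ∀ y ∈ B, ‖f x - f y‖ ≤ δ

namespace BM

variable {f g : X → ℂ}

theorem meas (hf : BM f) : Measurable f := hf.1

theorem const (c : ℂ) : BM (fun _ : X => c) := ⟨measurable_const, ‖c‖, fun _ => le_rfl⟩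

theorem add (hf : BM f) (hg : BM g) : BM (fun x => f x + g x) := by
  obtain ⟨a, ha⟩ := hf.2
  obtain ⟨b, hb⟩ := hg.2
  exact ⟨hf.1.add hg.1, a + b, fun x => (norm_add_le _ _).trans (add_le_add (ha x) (hb x))⟩

theorem neg (hf : BM f) : BM (fun x => - f x) := by
  obtain ⟨a, ha⟩ := hf.2
  exact ⟨hf.1.neg, a, fun x => by rw [norm_neg]; exact ha x⟩

theorem sub (hf : BM f) (hg : BM g) : BM (fun x => f x - g x) := by
  simpa only [sub_eq_add_neg] using hf.add hg.neg

theorem mul (hf : BM f) (hg : BM g) : BM (fun x => f x * g x) := by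
  obtain ⟨a, ha⟩ := hf.2
  obtain ⟨b, hb⟩ := hg.2
  refine ⟨hf.1.mul hg.1, a * b, fun x => ?_⟩
  rw [norm_mul]
  exact mul_le_mul (ha x) (hb x) (norm_nonneg _) ((norm_nonneg _).trans (ha x))

theorem smul (c : ℂ) (hf : BM f) : BM (fun x => c * f x) := (BM.const c).mul hf

theorem star (hf : BM f) : BM (fun x => (starRingEnd ℂ) (f x)) := by
  obtain ⟨a, ha⟩ := hf.2
  exact ⟨Complex.continuous_conj.measurable.comp hf.1, a, fun x => by
    rw [RCLike.norm_conj]; exact ha x⟩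

theorem ind {A : Set X} (hA : MeasurableSet A) (hf : BM f) : BM (A.indicator f) := by
  obtain ⟨a, ha⟩ := hf.2
  refine ⟨hf.1.indicator hA, a, fun x => ?_⟩
  by_cases hx : x ∈ A
  · rw [Set.indicator_of_mem hx]; exact ha x
  · rw [Set.indicator_of_notMem hx, norm_zero]; exact (norm_nonneg _).trans (ha x)

/-- a measurable function bounded on `A` -/
theorem ind' {A : Set X} (hA : MeasurableSet A) (hf : Measurable f) {C : ℝ}
    (hC : ∀ x ∈ A, ‖f x‖ ≤ C) : BM (A.indicator f) := by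
  refine ⟨hf.indicator hA, max C 0, fun x => ?_⟩
  by_cases hx : x ∈ A
  · rw [Set.indicator_of_mem hx]; exact (hC x hx).trans (le_max_left _ _)
  · rw [Set.indicator_of_notMem hx, norm_zero]; exact le_max_right _ _

theorem sum {ι : Type*} (s : Finset ι) {F : ι → X → ℂ} (hF : ∀ i ∈ s, BM (F i)) :
    BM (fun x => ∑ i ∈ s, F i x) := by
  classical
  induction s using Finset.induction_on with
  | empty => simpa using BM.const (X := X) 0
  | insert a s ha ih =>
    simp only [Finset.sum_insert ha]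
    exact (hF a (Finset.mem_insert_self _ _)).add
      (ih fun i hi => hF i (Finset.mem_insert_of_mem hi))

theorem prod {ι : Type*} (s : Finset ι) {F : ι → X → ℂ} (hF : ∀ i ∈ s, BM (F i)) :
    BM (fun x => ∏ i ∈ s, F i x) := by
  classical
  induction s using Finset.induction_on with
  | empty => simpa using BM.const (X := X) 1
  | insert a s ha ih =>
    simp only [Finset.prod_insert ha]
    exact (hF a (Finset.mem_insert_self _ _)).mul
      (ih fun i hi => hF i (Finset.mem_insert_of_mem hi))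

end BM

/-- bound of an operator on the pieces of a finite partition -/
theorem norm_part (h : Pv P) {T : K →L[ℂ] K} (hT : ∀ A, MeasurableSet A → T * P A = P A * T)
    {ι : Type*} (s : Finset ι) (B : ι → Set X) (hB : ∀ i ∈ s, MeasurableSet (B i))
    (hd : ∀ i ∈ s, ∀ j ∈ s, i ≠ j → Disjoint (B i) (B j)) {A : Set X} (hA : MeasurableSet A)
    (hc : ∀ x ∈ A, ∃ i ∈ s, x ∈ B i) {ε : ℝ} (hε : 0 ≤ ε)
    (H : ∀ i ∈ s, ‖T * P (A ∩ B i)‖ ≤ ε) : ‖T * P A‖ ≤ ε := by
  have hm : ∀ i ∈ s, MeasurableSet (A ∩ B i) := fun i hi => hA.inter (hB i hi)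
  have hd' : ∀ i ∈ s, ∀ j ∈ s, i ≠ j → Disjoint (A ∩ B i) (A ∩ B j) := fun i hi j hj hij =>
    (hd i hi j hj hij).mono Set.inter_subset_right Set.inter_subset_right
  have e : A = ⋃ i ∈ s, A ∩ B i := by
    ext x
    simp only [Set.mem_iUnion, Set.mem_inter_iff, exists_prop]
    constructor
    · intro hx
      obtain ⟨i, hi, hxi⟩ := hc x hx
      exact ⟨i, hi, hx, hxi⟩
    · rintro ⟨i, _, hx, _⟩; exact hx
  have eP : P A = ∑ i ∈ s, P (A ∩ B i) := by
    conv_lhs => rw [e]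
    exact h.sum s _ hm hd'
  refine ContinuousLinearMap.opNorm_le_bound _ hε fun ξ => ?_
  have e2 : (T * P A) ξ = ∑ i ∈ s, P (A ∩ B i) ((T * P (A ∩ B i)) ξ) := by
    rw [eP, Finset.mul_sum, sum_apply]
    refine Finset.sum_congr rfl fun i hi => ?_
    have : T * P (A ∩ B i) = P (A ∩ B i) * (T * P (A ∩ B i)) := by
      rw [← mul_assoc, ← hT _ (hm i hi), mul_assoc, h.idem (hm i hi)]
    conv_lhs => rw [this]
    rfl
  have h1 : ‖(T * P A) ξ‖ ^ 2 ≤ 1 * ∑ i ∈ s, ‖(T * P (A ∩ B i)) ξ‖ ^ 2 := by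
    rw [e2]
    have := h.mult' s (fun i => A ∩ B i) hm 1 (fun x t ht htx => by
      rw [Finset.card_le_one]
      intro i hi j hj
      by_contra hij
      exact Set.disjoint_left.1 (hd' i (ht hi) j (ht hj) hij) (htx i hi) (htx j hj))
      (fun i => (T * P (A ∩ B i)) ξ)
    simpa using this
  have h2 : ∑ i ∈ s, ‖(T * P (A ∩ B i)) ξ‖ ^ 2 ≤ ∑ i ∈ s, ε ^ 2 * ‖P (A ∩ B i) ξ‖ ^ 2 := by
    refine Finset.sum_le_sum fun i hi => ?_
    have e3 : (T * P (A ∩ B i)) ξ = (T * P (A ∩ B i)) (P (A ∩ B i) ξ) := by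
      have : T * P (A ∩ B i) = T * P (A ∩ B i) * P (A ∩ B i) := by
        rw [mul_assoc, h.idem (hm i hi)]
      conv_lhs => rw [this]
      rfl
    rw [e3, ← mul_pow]
    refine pow_le_pow_left₀ (norm_nonneg _) ?_ 2
    exact (ContinuousLinearMap.le_opNorm _ _).trans
      (mul_le_mul_of_nonneg_right (H i hi) (norm_nonneg _))
  have h3 := h.bessel s (fun i => A ∩ B i) hm hd' ξ
  have h4 : ‖(T * P A) ξ‖ ^ 2 ≤ (ε * ‖ξ‖) ^ 2 := by
    rw [← Finset.mul_sum] at h2
    calc _ ≤ 1 * ∑ i ∈ s, ‖(T * P (A ∩ B i)) ξ‖ ^ 2 := h1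
      _ ≤ ε ^ 2 * ∑ i ∈ s, ‖P (A ∩ B i) ξ‖ ^ 2 := by rw [one_mul]; exact h2
      _ ≤ ε ^ 2 * ‖ξ‖ ^ 2 := mul_le_mul_of_nonneg_left h3 (sq_nonneg _)
      _ = _ := by ring
  exact le_of_sq_le_sq h4 (by positivity)

/-- cells of a bounded function -/
def cel (f : X → ℂ) (N : ℕ) (i : ℤ × ℤ) : Set X :=
  {x | ⌊(N : ℝ) * (f x).re⌋ = i.1} ∩ {x | ⌊(N : ℝ) * (f x).im⌋ = i.2}

theorem meas_cel {f : X → ℂ} (hf : Measurable f) (N : ℕ) (i : ℤ × ℤ) :
    MeasurableSet (cel f N i) := by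
  have h1 : Measurable fun x => ⌊(N : ℝ) * (f x).re⌋ :=
    Int.measurable_floor.comp ((Complex.measurable_re.comp hf).const_mul _)
  have h2 : Measurable fun x => ⌊(N : ℝ) * (f x).im⌋ :=
    Int.measurable_floor.comp ((Complex.measurable_im.comp hf).const_mul _)
  exact (h1 (measurableSet_singleton i.1)).inter (h2 (measurableSet_singleton i.2))

theorem disj_cel {f : X → ℂ} {N : ℕ} {i j : ℤ × ℤ} (hij : i ≠ j) :
    Disjoint (cel f N i) (cel f N j) := by
  rw [Set.disjoint_left]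
  rintro x ⟨h1, h2⟩ ⟨h3, h4⟩
  exact hij (Prod.ext (h1.symm.trans h3) (h2.symm.trans h4))

theorem osc_cel {f : X → ℂ} {N : ℕ} (hN : 0 < N) (i : ℤ × ℤ) : Osc f (2 / N) (cel f N i) := by
  rintro x ⟨h1, h2⟩ y ⟨h3, h4⟩
  have hN' : (0 : ℝ) < N := by exact_mod_cast hN
  have key : ∀ a b : ℝ, ⌊(N : ℝ) * a⌋ = ⌊(N : ℝ) * b⌋ → |a - b| ≤ 1 / N := by
    intro a b hab
    have := (Int.abs_sub_lt_one_of_floor_eq_floor hab).le
    rw [← mul_sub, abs_mul, abs_of_pos hN'] at this
    rw [le_div_iff₀ hN']; linarith [mul_comm (|a - b|) (N : ℝ)]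
  have k1 := key _ _ (h1.trans h3.symm)
  have k2 := key _ _ (h2.trans h4.symm)
  calc ‖f x - f y‖ ≤ |(f x - f y).re| + |(f x - f y).im| := Complex.norm_le_abs_re_add_abs_im _
    _ ≤ 1 / N + 1 / N := by
        rw [Complex.sub_re, Complex.sub_im]; exact add_le_add k1 k2
    _ = 2 / N := by ring

/-- the box of indices -/
noncomputable def bx (M : ℕ) : Finset (ℤ × ℤ) := Finset.Icc (-(M : ℤ)) M ×ˢ Finset.Icc (-(M : ℤ)) M

theorem mem_cel_bx {f : X → ℂ} {C : ℝ} (hC : ∀ x, ‖f x‖ ≤ C) {N M : ℕ}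
    (hM : (N : ℝ) * C + 1 ≤ M) (x : X) : ∃ i ∈ bx M, x ∈ cel f N i := by
  refine ⟨(⌊(N : ℝ) * (f x).re⌋, ⌊(N : ℝ) * (f x).im⌋), ?_, rfl, rfl⟩
  have hN' : (0 : ℝ) ≤ N := Nat.cast_nonneg N
  have key : ∀ a : ℝ, |a| ≤ C → ⌊(N : ℝ) * a⌋ ∈ Finset.Icc (-(M : ℤ)) M := by
    intro a ha
    have h1 : |(N : ℝ) * a| ≤ N * C := by
      rw [abs_mul, abs_of_nonneg hN']; exact mul_le_mul_of_nonneg_left ha hN'
    rw [abs_le] at h1
    rw [Finset.mem_Icc]
    constructor
    · rw [Int.le_floor]; push_cast; linarith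
    · have : ((⌊(N : ℝ) * a⌋ : ℤ) : ℝ) ≤ (M : ℤ) :=
        (Int.floor_le _).trans (by push_cast; linarith)
      exact_mod_cast this
  rw [bx, Finset.mem_product]
  exact ⟨key _ ((Complex.abs_re_le_norm _).trans (hC x)),
    key _ ((Complex.abs_im_le_norm _).trans (hC x))⟩

/-- **localisation**: a bound of `T * P A` may be checked on the small pieces of `A` on which two
bounded measurable functions have small oscillation. -/
theorem loc (h : Pv P) {f g : X → ℂ} (hf : BM f) (hg : BM g) {T : K →L[ℂ] K}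
    (hT : ∀ A, MeasurableSet A → T * P A = P A * T) {A : Set X} (hA : MeasurableSet A)
    {ε δ : ℝ} (hε : 0 ≤ ε) (hδ : 0 < δ)
    (H : ∀ B, B ⊆ A → MeasurableSet B → B.Nonempty → Osc f δ B → Osc g δ B → ‖T * P B‖ ≤ ε) :
    ‖T * P A‖ ≤ ε := by
  obtain ⟨Cf, hCf⟩ := hf.2
  obtain ⟨Cg, hCg⟩ := hg.2
  obtain ⟨N, hN⟩ := exists_nat_gt (2 / δ)
  have hN0 : 0 < N := by
    rcases Nat.eq_zero_or_pos N with h0 | h0
    · rw [h0, Nat.cast_zero] at hN
      exact absurd hN (not_lt.2 (by positivity))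
    · exact h0
  have hN' : (0 : ℝ) < N := by exact_mod_cast hN0
  have hNδ : 2 / (N : ℝ) ≤ δ := by
    rw [div_lt_iff₀ hδ] at hN
    rw [div_le_iff₀ hN']; linarith
  obtain ⟨Mf, hMf⟩ := exists_nat_gt ((N : ℝ) * Cf + 1)
  obtain ⟨Mg, hMg⟩ := exists_nat_gt ((N : ℝ) * Cg + 1)
  refine norm_part h hT (bx Mf ×ˢ bx Mg) (fun p => cel f N p.1 ∩ cel g N p.2)
    (fun p _ => (meas_cel hf.1 N _).inter (meas_cel hg.1 N _)) ?_ hA ?_ hε ?_
  · intro p _ q _ hpq
    by_cases h1 : p.1 = q.1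
    · have h2 : p.2 ≠ q.2 := fun h2 => hpq (Prod.ext h1 h2)
      exact (disj_cel (f := g) (N := N) h2).mono Set.inter_subset_right Set.inter_subset_right
    · exact (disj_cel (f := f) (N := N) h1).mono Set.inter_subset_left Set.inter_subset_left
  · intro x _
    obtain ⟨i, hi, hxi⟩ := mem_cel_bx hCf hMf.le x
    obtain ⟨j, hj, hxj⟩ := mem_cel_bx hCg hMg.le x
    exact ⟨(i, j), Finset.mk_mem_product hi hj, hxi, hxj⟩
  · rintro ⟨i, j⟩ _
    set B := A ∩ (cel f N i ∩ cel g N j) with hBdef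
    have hBm : MeasurableSet B := hA.inter ((meas_cel hf.1 N _).inter (meas_cel hg.1 N _))
    rcases B.eq_empty_or_nonempty with h0 | h0
    · show ‖T * P B‖ ≤ ε
      rw [h0, h.empty, mul_zero, norm_zero]; exact hε
    · refine H B Set.inter_subset_left hBm h0 (fun x hx y hy => ?_) (fun x hx y hy => ?_)
      · exact (osc_cel hN0 i x hx.2.1 y hy.2.1).trans hNδ
      · exact (osc_cel hN0 j x hx.2.2 y hy.2.2).trans hNδ

/-- `W = ∫ f dP` -/
structure IsB (P : Set X → (K →L[ℂ] K)) (f : X → ℂ) (W : K →L[ℂ] K) : Prop where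
  comm : ∀ A, MeasurableSet A → W * P A = P A * W
  appr : ∀ A, MeasurableSet A → ∀ (c : ℂ) (ε : ℝ), 0 ≤ ε → (∀ x ∈ A, ‖f x - c‖ ≤ ε) →
    ‖(W - c • 1) * P A‖ ≤ ε

theorem comm_sub_smul {W : K →L[ℂ] K} (hW : ∀ A, MeasurableSet A → W * P A = P A * W) (c : ℂ)
    (A : Set X) (hA : MeasurableSet A) : (W - c • 1) * P A = P A * (W - c • 1) := by
  rw [sub_mul, mul_sub, hW A hA, smul_mul_assoc, mul_smul_comm, one_mul, mul_one]

namespace IsB

variable {f g : X → ℂ} {W V : K →L[ℂ] K}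

theorem norm_mul_le (hW : IsB P f W) {A : Set X} (hA : MeasurableSet A) {C : ℝ} (hC : 0 ≤ C)
    (hf : ∀ x ∈ A, ‖f x‖ ≤ C) : ‖W * P A‖ ≤ C := by
  have := hW.appr A hA 0 C hC (fun x hx => by rw [sub_zero]; exact hf x hx)
  rwa [zero_smul, sub_zero] at this

theorem norm_le (h : Pv P) (hW : IsB P f W) {C : ℝ} (hC : 0 ≤ C) (hf : ∀ x, ‖f x‖ ≤ C) :
    ‖W‖ ≤ C := by
  have := hW.norm_mul_le MeasurableSet.univ hC (fun x _ => hf x)
  rwa [h.univ, mul_one] at this

theorem unique (h : Pv P) (hf : BM f) (hW : IsB P f W) (hV : IsB P f V) : W = V := by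
  have hc : ∀ A, MeasurableSet A → (W - V) * P A = P A * (W - V) := fun A hA => by
    rw [sub_mul, mul_sub, hW.comm A hA, hV.comm A hA]
  have key : ∀ δ : ℝ, 0 < δ → ‖W - V‖ ≤ 2 * δ := by
    intro δ hδ
    have h1 := loc h hf hf hc MeasurableSet.univ (by positivity : (0 : ℝ) ≤ 2 * δ) hδ
      (fun B _ hB hne ho _ => by
        obtain ⟨x0, hx0⟩ := hne
        have e : (W - V) * P B = (W - f x0 • 1) * P B - (V - f x0 • 1) * P B := by
          rw [← sub_mul]; congr 1; abel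
        rw [e]
        refine (norm_sub_le _ _).trans ?_
        have a1 := hW.appr B hB (f x0) δ hδ.le (fun x hx => ho x hx x0 hx0)
        have a2 := hV.appr B hB (f x0) δ hδ.le (fun x hx => ho x hx x0 hx0)
        linarith)
    rwa [h.univ, mul_one] at h1
  have h0 : ‖W - V‖ ≤ 0 := by
    refine le_of_forall_pos_le_add fun ε hε => ?_
    have := key (ε / 2) (by positivity)
    linarith
  exact sub_eq_zero.1 (norm_le_zero_iff.1 h0)

theorem congr {f' : X → ℂ} (hW : IsB P f W) (e : ∀ x, f x = f' x) : IsB P f' W := by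
  have : f = f' := funext e
  rwa [this] at hW

theorem const (h : Pv P) (c : ℂ) : IsB P (fun _ : X => c) (c • (1 : K →L[ℂ] K)) := by
  refine ⟨fun A _ => by rw [smul_mul_assoc, mul_smul_comm, one_mul, mul_one],
    fun A hA d ε hε hc => ?_⟩
  rcases A.eq_empty_or_nonempty with h0 | ⟨x0, hx0⟩
  · rw [h0, h.empty, mul_zero, norm_zero]; exact hε
  · rw [← sub_smul, smul_mul_assoc, one_mul, norm_smul]
    calc _ ≤ ‖c - d‖ * 1 := mul_le_mul_of_nonneg_left (h.opNorm_le hA) (norm_nonneg _)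
      _ = ‖c - d‖ := mul_one _
      _ ≤ ε := hc x0 hx0

theorem add (h : Pv P) (hf : BM f) (hg : BM g) (hW : IsB P f W) (hV : IsB P g V) :
    IsB P (fun x => f x + g x) (W + V) := by
  refine ⟨fun A hA => by rw [add_mul, mul_add, hW.comm A hA, hV.comm A hA],
    fun A hA c ε hε hc => ?_⟩
  refine le_of_forall_pos_le_add fun δ hδ => ?_
  refine loc h hf hg (comm_sub_smul (fun A hA => by
    rw [add_mul, mul_add, hW.comm A hA, hV.comm A hA]) c) hA (by positivity)
    (half_pos (half_pos hδ)) (fun B hBA hB hne ho1 ho2 => ?_)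
  obtain ⟨x0, hx0⟩ := hne
  have a1 := hW.appr B hB (f x0) (δ / 2 / 2) (by positivity) (fun x hx => ho1 x hx x0 hx0)
  have a2 := hV.appr B hB (g x0) (δ / 2 / 2) (by positivity) (fun x hx => ho2 x hx x0 hx0)
  have a3 : ‖((f x0 + g x0 - c) • (1 : K →L[ℂ] K)) * P B‖ ≤ ε := by
    rw [smul_mul_assoc, one_mul, norm_smul]
    calc _ ≤ ‖f x0 + g x0 - c‖ * 1 := mul_le_mul_of_nonneg_left (h.opNorm_le hB) (norm_nonneg _)
      _ = ‖f x0 + g x0 - c‖ := mul_one _
      _ ≤ ε := hc x0 (hBA hx0)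
  have e : (W + V - c • 1) * P B = (W - f x0 • 1) * P B + (V - g x0 • 1) * P B
      + ((f x0 + g x0 - c) • (1 : K →L[ℂ] K)) * P B := by
    rw [← add_mul, ← add_mul]; congr 1; module
  rw [e]
  refine (norm_add₃_le).trans ?_
  linarith

theorem mul (h : Pv P) (hf : BM f) (hg : BM g) (hW : IsB P f W) (hV : IsB P g V) :
    IsB P (fun x => f x * g x) (W * V) := by
  obtain ⟨Cf, hCf⟩ := hf.2
  obtain ⟨Cg, hCg⟩ := hg.2
  have hcm : ∀ A, MeasurableSet A → (W * V) * P A = P A * (W * V) := fun A hA => by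
    rw [mul_assoc, hV.comm A hA, ← mul_assoc, hW.comm A hA, mul_assoc]
  refine ⟨hcm, fun A hA c ε hε hc => ?_⟩
  refine le_of_forall_pos_le_add fun δ hδ => ?_
  set M : ℝ := 1 + |Cf| + |Cg| with hM
  have hM0 : 0 < M := by positivity
  have hCf' : ∀ x, ‖f x‖ ≤ M := fun x => (hCf x).trans (by
    rw [hM]; linarith [le_abs_self Cf, abs_nonneg Cg])
  have hCg' : ∀ x, ‖g x‖ ≤ M := fun x => (hCg x).trans (by
    rw [hM]; linarith [le_abs_self Cg, abs_nonneg Cf])
  have hWn : ‖W‖ ≤ M := hW.norm_le h hM0.le hCf'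
  refine loc h hf hg (comm_sub_smul hcm c) hA (by positivity)
    (div_pos (half_pos hδ) hM0) (fun B hBA hB hne ho1 ho2 => ?_)
  obtain ⟨x0, hx0⟩ := hne
  have a1 := hW.appr B hB (f x0) (δ / 2 / M) (by positivity) (fun x hx => ho1 x hx x0 hx0)
  have a2 := hV.appr B hB (g x0) (δ / 2 / M) (by positivity) (fun x hx => ho2 x hx x0 hx0)
  have b1 : ‖W * ((V - g x0 • 1) * P B)‖ ≤ δ / 2 :=
    calc _ ≤ ‖W‖ * ‖(V - g x0 • 1) * P B‖ := _root_.norm_mul_le _ _
      _ ≤ M * (δ / 2 / M) := mul_le_mul hWn a2 (norm_nonneg _) hM0.le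
      _ = δ / 2 := by field_simp
  have b2 : ‖g x0 • ((W - f x0 • 1) * P B)‖ ≤ δ / 2 := by
    rw [norm_smul]
    calc _ ≤ M * (δ / 2 / M) := mul_le_mul (hCg' x0) a1 (norm_nonneg _) hM0.le
      _ = δ / 2 := by field_simp
  have a3 : ‖((f x0 * g x0 - c) • (1 : K →L[ℂ] K)) * P B‖ ≤ ε := by
    rw [smul_mul_assoc, one_mul, norm_smul]
    calc _ ≤ ‖f x0 * g x0 - c‖ * 1 := mul_le_mul_of_nonneg_left (h.opNorm_le hB) (norm_nonneg _)
      _ = ‖f x0 * g x0 - c‖ := mul_one _
      _ ≤ ε := hc x0 (hBA hx0)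
  have e : (W * V - c • 1) * P B = W * ((V - g x0 • 1) * P B) + g x0 • ((W - f x0 • 1) * P B)
      + ((f x0 * g x0 - c) • (1 : K →L[ℂ] K)) * P B := by
    rw [← mul_assoc, ← smul_mul_assoc, ← add_mul, ← add_mul]
    congr 1
    rw [mul_sub, mul_smul_comm, mul_one, smul_sub, smul_smul, sub_smul, mul_comm (g x0) (f x0)]
    abel
  rw [e]
  refine (norm_add₃_le).trans ?_
  linarith

theorem star (h : Pv P) (hW : IsB P f W) :
    IsB P (fun x => (starRingEnd ℂ) (f x)) (star W) := by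
  have hc : ∀ A, MeasurableSet A → Star.star W * P A = P A * Star.star W := fun A hA => by
    have := congrArg Star.star (hW.comm A hA)
    rw [star_mul, star_mul, h.sa A hA] at this
    exact this.symm
  refine ⟨hc, fun A hA c ε hε hcε => ?_⟩
  have a1 := hW.appr A hA ((starRingEnd ℂ) c) ε hε (fun x hx => by
    have := hcε x hx
    rwa [← RCLike.norm_conj (f x - (starRingEnd ℂ) c), map_sub, RCLike.conj_conj])
  have e : (Star.star W - c • 1) * P A = Star.star ((W - ((starRingEnd ℂ) c) • 1) * P A) := by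
    rw [comm_sub_smul hc c A hA, star_mul, h.sa A hA, star_sub, star_smul, star_one]
    congr 3
    exact (RCLike.conj_conj c).symm
  rw [e, norm_star]
  exact a1

theorem smul (h : Pv P) (c : ℂ) (hf : BM f) (hW : IsB P f W) :
    IsB P (fun x => c * f x) (c • W) := by
  have := mul h (BM.const c) hf (const h c) hW
  rwa [smul_mul_assoc, one_mul] at this

theorem indicator (h : Pv P) {A : Set X} (hA : MeasurableSet A) :
    IsB P (A.indicator fun _ => (1 : ℂ)) (P A) := by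
  refine ⟨fun B hB => h.comm hA hB, fun B hB c ε hε hc => ?_⟩
  have hcm : ∀ D, MeasurableSet D → (P A - c • 1) * P D = P D * (P A - c • 1) :=
    comm_sub_smul (fun D hD => h.comm hA hD) c
  have hf : BM (A.indicator fun _ => (1 : ℂ)) := (BM.const 1).ind hA
  refine loc h hf hf hcm hB hε (by norm_num : (0 : ℝ) < 1 / 2) (fun D hDB hD hne ho _ => ?_)
  obtain ⟨x0, hx0⟩ := hne
  have hx := hc x0 (hDB hx0)
  by_cases hxA : x0 ∈ A
  · have hDA : D ⊆ A := by
      intro y hy
      by_contra hyA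
      have := ho x0 hx0 y hy
      rw [Set.indicator_of_mem hxA, Set.indicator_of_notMem hyA, sub_zero, norm_one] at this
      norm_num at this
    rw [Set.indicator_of_mem hxA] at hx
    rw [sub_mul, h.mul_of_subset' hD hA hDA, smul_mul_assoc, one_mul]
    have e : P D - c • P D = (1 - c) • P D := by rw [sub_smul, one_smul]
    rw [e, norm_smul]
    calc _ ≤ ‖1 - c‖ * 1 := mul_le_mul_of_nonneg_left (h.opNorm_le hD) (norm_nonneg _)
      _ = ‖1 - c‖ := mul_one _
      _ ≤ ε := hx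
  · have hDA : Disjoint A D := by
      rw [Set.disjoint_left]
      intro y hyA hy
      have := ho x0 hx0 y hy
      rw [Set.indicator_of_notMem hxA, Set.indicator_of_mem hyA, zero_sub, norm_neg,
        norm_one] at this
      norm_num at this
    rw [Set.indicator_of_notMem hxA] at hx
    rw [sub_mul, h.disj hA hD hDA, smul_mul_assoc, one_mul, zero_sub, norm_neg, norm_smul]
    calc _ ≤ ‖c‖ * 1 := mul_le_mul_of_nonneg_left (h.opNorm_le hD) (norm_nonneg _)
      _ = ‖0 - c‖ := by rw [mul_one, zero_sub, norm_neg]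
      _ ≤ ε := hx

end IsB


/-- `W = ∫ f dP` up to `η` -/
structure QB (P : Set X → (K →L[ℂ] K)) (f : X → ℂ) (η : ℝ) (W : K →L[ℂ] K) : Prop where
  comm : ∀ A, MeasurableSet A → W * P A = P A * W
  appr : ∀ A, MeasurableSet A → ∀ (c : ℂ) (ε : ℝ), 0 ≤ ε → (∀ x ∈ A, ‖f x - c‖ ≤ ε) →
    ‖(W - c • 1) * P A‖ ≤ ε + η

theorem QB.dist (h : Pv P) {f : X → ℂ} (hf : BM f) {a b : ℝ} (ha : 0 ≤ a) (hb : 0 ≤ b)
    {W V : K →L[ℂ] K} (hW : QB P f a W) (hV : QB P f b V) : ‖W - V‖ ≤ a + b := by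
  have hc : ∀ A, MeasurableSet A → (W - V) * P A = P A * (W - V) := fun A hA => by
    rw [sub_mul, mul_sub, hW.comm A hA, hV.comm A hA]
  refine le_of_forall_pos_le_add fun δ hδ => ?_
  have h1 := loc h hf hf hc MeasurableSet.univ (by positivity : (0 : ℝ) ≤ a + b + δ)
    (half_pos hδ) (fun B _ hB hne ho _ => by
      obtain ⟨x0, hx0⟩ := hne
      have e : (W - V) * P B = (W - f x0 • 1) * P B - (V - f x0 • 1) * P B := by
        rw [← sub_mul]; congr 1; abel
      rw [e]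
      refine (norm_sub_le _ _).trans ?_
      have a1 := hW.appr B hB (f x0) (δ / 2) (by positivity) (fun x hx => ho x hx x0 hx0)
      have a2 := hV.appr B hB (f x0) (δ / 2) (by positivity) (fun x hx => ho x hx x0 hx0)
      linarith)
  rwa [h.univ, mul_one] at h1

/-- step approximations -/
theorem exists_QB (h : Pv P) {f : X → ℂ} (hf : BM f) {N : ℕ} (hN : 0 < N) :
    ∃ W, QB P f (2 / N) W := by
  classical
  obtain ⟨C, hC⟩ := hf.2
  obtain ⟨M, hM⟩ := exists_nat_gt ((N : ℝ) * C + 1)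
  set z : ℤ × ℤ → ℂ := fun i =>
    if hi : (cel f N i).Nonempty then f hi.some else 0 with hz
  set W : K →L[ℂ] K := ∑ i ∈ bx M, z i • P (cel f N i) with hW
  have hcm : ∀ A, MeasurableSet A → W * P A = P A * W := fun A hA => by
    rw [hW, Finset.sum_mul, Finset.mul_sum]
    refine Finset.sum_congr rfl fun i _ => ?_
    rw [smul_mul_assoc, mul_smul_comm, h.comm (meas_cel hf.1 N i) hA]
  refine ⟨W, hcm, fun A hA c ε hε hc => ?_⟩
  have hN' : (0 : ℝ) < N := by exact_mod_cast hN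
  refine norm_part h (comm_sub_smul hcm c) (bx M) (fun i => cel f N i)
    (fun i _ => meas_cel hf.1 N i) (fun i _ j _ hij => disj_cel hij) hA
    (fun x _ => mem_cel_bx hC hM.le x) (by positivity) (fun i hi => ?_)
  have hAi : MeasurableSet (A ∩ cel f N i) := hA.inter (meas_cel hf.1 N i)
  rcases (A ∩ cel f N i).eq_empty_or_nonempty with h0 | ⟨x0, hxA, hxi⟩
  · rw [h0, h.empty, mul_zero, norm_zero]; positivity
  · have e : W * P (A ∩ cel f N i) = z i • P (A ∩ cel f N i) := by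
      rw [hW, Finset.sum_mul, Finset.sum_eq_single i]
      · rw [smul_mul_assoc, h.mul_of_subset' hAi (meas_cel hf.1 N i) Set.inter_subset_right]
      · intro j _ hji
        rw [smul_mul_assoc, h.disj (meas_cel hf.1 N j) hAi
          ((disj_cel hji).mono_right Set.inter_subset_right), smul_zero]
      · intro hi'; exact absurd hi hi'
    have e2 : (W - c • 1) * P (A ∩ cel f N i) = (z i - c) • P (A ∩ cel f N i) := by
      rw [sub_mul, e, smul_mul_assoc, one_mul, sub_smul]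
    have hne : (cel f N i).Nonempty := ⟨x0, hxi⟩
    have hzi : z i = f hne.some := by rw [hz]; exact dif_pos hne
    rw [e2, norm_smul]
    calc _ ≤ ‖z i - c‖ * 1 := mul_le_mul_of_nonneg_left (h.opNorm_le hAi) (norm_nonneg _)
      _ = ‖(f x0 - c) + (f hne.some - f x0)‖ := by rw [mul_one, hzi]; congr 1; ring
      _ ≤ ‖f x0 - c‖ + ‖f hne.some - f x0‖ := norm_add_le _ _
      _ ≤ ε + 2 / N := add_le_add (hc x0 hxA) (osc_cel hN i _ hne.some_mem _ hxi)

theorem exists_isB (h : Pv P) {f : X → ℂ} (hf : BM f) : ∃ W, IsB P f W := by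
  choose W hW using fun n : ℕ => exists_QB h hf (Nat.succ_pos n)
  have hη : ∀ n : ℕ, (0 : ℝ) ≤ 2 / (n.succ : ℕ) := fun n => by positivity
  have hlim : Filter.Tendsto (fun n : ℕ => (2 : ℝ) / (n.succ : ℕ)) Filter.atTop (nhds 0) := by
    have := (tendsto_const_div_atTop_nhds_zero_nat (2 : ℝ)).comp (Filter.tendsto_add_atTop_nat 1)
    exact this
  have hcau : CauchySeq W := by
    rw [Metric.cauchySeq_iff']
    intro ε hε
    obtain ⟨N, hN⟩ := (Filter.Tendsto.eventually_lt_const (half_pos hε) hlim).exists_forall_of_atTop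
    refine ⟨N, fun n hn => ?_⟩
    rw [dist_eq_norm]
    have := QB.dist h hf (hη n) (hη N) (hW n) (hW N)
    have h1 := hN n hn
    have h2 := hN N le_rfl
    linarith
  obtain ⟨V, hV⟩ := cauchySeq_tendsto_of_complete hcau
  refine ⟨V, fun A hA => ?_, fun A hA c ε hε hc => ?_⟩
  · exact tendsto_nhds_unique (hV.mul_const (P A))
      ((hV.const_mul (P A)).congr fun n => ((hW n).comm A hA).symm)
  · have h1 : Filter.Tendsto (fun n => ‖(W n - c • 1) * P A‖) Filter.atTop
        (nhds ‖(V - c • 1) * P A‖) := ((hV.sub_const _).mul_const _).norm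
    have h2 : Filter.Tendsto (fun n : ℕ => ε + (2 : ℝ) / (n.succ : ℕ)) Filter.atTop
        (nhds (ε + 0)) := hlim.const_add ε
    rw [add_zero] at h2
    exact le_of_tendsto_of_tendsto' h1 h2 fun n => (hW n).appr A hA c ε hε hc

open Classical in
/-- **the integral `∫ f dP`** of a bounded measurable function (junk `0` otherwise) -/
noncomputable def bor (P : Set X → (K →L[ℂ] K)) (f : X → ℂ) : K →L[ℂ] K :=
  if hf : ∃ W, IsB P f W then hf.choose else 0

section api

variable {f g : X → ℂ}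

theorem bor_spec (h : Pv P) (hf : BM f) : IsB P f (bor P f) := by
  have h1 := exists_isB h hf
  rw [bor, dif_pos h1]
  exact h1.choose_spec

theorem eq_bor (h : Pv P) (hf : BM f) {W : K →L[ℂ] K} (hW : IsB P f W) : W = bor P f :=
  hW.unique h hf (bor_spec h hf)

theorem bor_congr (e : ∀ x, f x = g x) : bor P f = bor P g := by
  rw [show f = g from funext e]

theorem bor_const (h : Pv P) (c : ℂ) : bor P (fun _ : X => c) = c • 1 :=
  (eq_bor h (BM.const c) (IsB.const h c)).symm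

theorem bor_one (h : Pv P) : bor P (fun _ : X => (1 : ℂ)) = 1 := by
  rw [bor_const h, one_smul]

theorem bor_zero (h : Pv P) : bor P (fun _ : X => (0 : ℂ)) = 0 := by
  rw [bor_const h, zero_smul]

theorem bor_add (h : Pv P) (hf : BM f) (hg : BM g) :
    bor P (fun x => f x + g x) = bor P f + bor P g :=
  (eq_bor h (hf.add hg) ((bor_spec h hf).add h hf hg (bor_spec h hg))).symm

theorem bor_mul (h : Pv P) (hf : BM f) (hg : BM g) :
    bor P (fun x => f x * g x) = bor P f * bor P g :=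
  (eq_bor h (hf.mul hg) ((bor_spec h hf).mul h hf hg (bor_spec h hg))).symm

theorem bor_smul (h : Pv P) (c : ℂ) (hf : BM f) : bor P (fun x => c * f x) = c • bor P f :=
  (eq_bor h (hf.smul c) ((bor_spec h hf).smul h c hf)).symm

theorem bor_neg (h : Pv P) (hf : BM f) : bor P (fun x => - f x) = - bor P f := by
  have := bor_smul h (-1) hf
  rw [neg_one_smul] at this
  rw [← this]
  exact bor_congr fun x => (neg_one_mul _).symm

theorem bor_sub (h : Pv P) (hf : BM f) (hg : BM g) :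
    bor P (fun x => f x - g x) = bor P f - bor P g := by
  rw [sub_eq_add_neg (bor P f), ← bor_neg h hg, ← bor_add h hf hg.neg]
  exact bor_congr fun x => sub_eq_add_neg _ _

theorem bor_star (h : Pv P) (hf : BM f) :
    bor P (fun x => (starRingEnd ℂ) (f x)) = star (bor P f) :=
  (eq_bor h hf.star ((bor_spec h hf).star h)).symm

theorem bor_indicator_one (h : Pv P) {A : Set X} (hA : MeasurableSet A) :
    bor P (A.indicator fun _ => (1 : ℂ)) = P A :=
  (eq_bor h ((BM.const 1).ind hA) (IsB.indicator h hA)).symm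

theorem bor_indicator (h : Pv P) {A : Set X} (hA : MeasurableSet A) (hf : BM f) :
    bor P (A.indicator f) = bor P f * P A := by
  rw [← bor_indicator_one h hA, ← bor_mul h hf ((BM.const 1).ind hA)]
  refine bor_congr fun x => ?_
  by_cases hx : x ∈ A
  · rw [Set.indicator_of_mem hx, Set.indicator_of_mem hx, mul_one]
  · rw [Set.indicator_of_notMem hx, Set.indicator_of_notMem hx, mul_zero]

theorem bor_sum (h : Pv P) {ι : Type*} (s : Finset ι) {F : ι → X → ℂ}
    (hF : ∀ i ∈ s, BM (F i)) : bor P (fun x => ∑ i ∈ s, F i x) = ∑ i ∈ s, bor P (F i) := by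
  classical
  induction s using Finset.induction_on with
  | empty => simpa using bor_zero (X := X) h
  | insert a s ha ih =>
    simp only [Finset.sum_insert ha]
    rw [bor_add h (hF a (Finset.mem_insert_self _ _))
      (BM.sum s fun i hi => hF i (Finset.mem_insert_of_mem hi)),
      ih fun i hi => hF i (Finset.mem_insert_of_mem hi)]

theorem bor_pow (h : Pv P) (hf : BM f) : ∀ n : ℕ, BM (fun x => f x ^ n) ∧
    bor P (fun x => f x ^ n) = bor P f ^ n
  | 0 => by
    simp only [pow_zero]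
    exact ⟨BM.const 1, bor_one h⟩
  | n + 1 => by
    obtain ⟨h1, h2⟩ := bor_pow h hf n
    simp only [pow_succ]
    exact ⟨h1.mul hf, by rw [bor_mul h h1 hf, h2]⟩

theorem bor_comm_P (h : Pv P) (hf : BM f) {A : Set X} (hA : MeasurableSet A) :
    bor P f * P A = P A * bor P f := (bor_spec h hf).comm A hA

theorem bor_comm (h : Pv P) (hf : BM f) (hg : BM g) :
    bor P f * bor P g = bor P g * bor P f := by
  rw [← bor_mul h hf hg, ← bor_mul h hg hf]
  exact bor_congr fun x => mul_comm _ _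

theorem norm_bor_le (h : Pv P) (hf : BM f) {C : ℝ} (hC : 0 ≤ C) (hfC : ∀ x, ‖f x‖ ≤ C) :
    ‖bor P f‖ ≤ C := (bor_spec h hf).norm_le h hC hfC

theorem norm_bor_mul_le (h : Pv P) (hf : BM f) {A : Set X} (hA : MeasurableSet A) {C : ℝ}
    (hC : 0 ≤ C) (hfC : ∀ x ∈ A, ‖f x‖ ≤ C) : ‖bor P f * P A‖ ≤ C :=
  (bor_spec h hf).norm_mul_le hA hC hfC

theorem norm_bor_apply_le (h : Pv P) (hf : BM f) {A : Set X} (hA : MeasurableSet A) {C : ℝ}
    (hC : 0 ≤ C) (hfC : ∀ x ∈ A, ‖f x‖ ≤ C) (ξ : K) : ‖bor P f (P A ξ)‖ ≤ C * ‖P A ξ‖ := by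
  have e : bor P f (P A ξ) = (bor P f * P A) (P A ξ) := by
    have : bor P f * P A = bor P f * P A * P A := by rw [mul_assoc, h.idem hA]
    calc bor P f (P A ξ) = (bor P f * P A) ξ := rfl
      _ = (bor P f * P A * P A) ξ := by rw [← this]
      _ = _ := rfl
  rw [e]
  exact (ContinuousLinearMap.le_opNorm _ _).trans
    (mul_le_mul_of_nonneg_right (norm_bor_mul_le h hf hA hC hfC) (norm_nonneg _))

/-- locality -/
theorem bor_mul_congr (h : Pv P) (hf : BM f) (hg : BM g) {A : Set X} (hA : MeasurableSet A)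
    (e : ∀ x ∈ A, f x = g x) : bor P f * P A = bor P g * P A := by
  have h1 := norm_bor_mul_le h (hf.sub hg) hA le_rfl (fun x hx => by
    rw [e x hx, sub_self, norm_zero])
  rw [bor_sub h hf hg, sub_mul] at h1
  exact sub_eq_zero.1 (norm_le_zero_iff.1 h1)

/-- a function carried by `A` -/
theorem bor_supp (h : Pv P) (hf : BM f) {A : Set X} (hA : MeasurableSet A)
    (e : ∀ x, x ∉ A → f x = 0) : bor P f * P A = bor P f := by
  rw [← bor_indicator h hA hf]
  refine bor_congr fun x => ?_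
  by_cases hx : x ∈ A
  · rw [Set.indicator_of_mem hx]
  · rw [Set.indicator_of_notMem hx, e x hx]

/-- operators which commute with `P` commute with the integrals -/
theorem bor_comm_of (h : Pv P) (hf : BM f) {T : K →L[ℂ] K}
    (hT : ∀ A, MeasurableSet A → T * P A = P A * T) : T * bor P f = bor P f * T := by
  set W := bor P f with hW
  have hWs := bor_spec h hf
  rw [← hW] at hWs
  have hc : ∀ A, MeasurableSet A → (T * W - W * T) * P A = P A * (T * W - W * T) :=
    fun A hA => by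
    rw [sub_mul, mul_sub, mul_assoc, hWs.comm A hA, ← mul_assoc, hT A hA, mul_assoc,
      mul_assoc W, hT A hA, ← mul_assoc W, hWs.comm A hA, mul_assoc]
  have key : ∀ δ : ℝ, 0 < δ → ‖T * W - W * T‖ ≤ 2 * ‖T‖ * δ := by
    intro δ hδ
    have h1 := loc h hf hf hc MeasurableSet.univ (by positivity : (0 : ℝ) ≤ 2 * ‖T‖ * δ) hδ
      (fun B _ hB hne ho _ => by
        obtain ⟨x0, hx0⟩ := hne
        have a1 := hWs.appr B hB (f x0) δ hδ.le (fun x hx => ho x hx x0 hx0)
        have e : (T * W - W * T) * P B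
            = T * ((W - f x0 • 1) * P B) - ((W - f x0 • 1) * P B) * T := by
          rw [sub_mul, mul_assoc W T, hT B hB, mul_assoc (W - f x0 • 1), ← hT B hB]
          rw [sub_mul, sub_mul, mul_sub, mul_assoc T W, smul_mul_assoc, smul_mul_assoc, one_mul,
            one_mul, mul_smul_comm]
          abel
        rw [e]
        refine (norm_sub_le _ _).trans ?_
        have b1 := (norm_mul_le T ((W - f x0 • 1) * P B)).trans
          (mul_le_mul_of_nonneg_left a1 (norm_nonneg T))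
        have b2 := (norm_mul_le ((W - f x0 • 1) * P B) T).trans
          (mul_le_mul_of_nonneg_right a1 (norm_nonneg T))
        linarith [mul_comm δ ‖T‖])
    rwa [h.univ, mul_one] at h1
  have h0 : ‖T * W - W * T‖ ≤ 0 := by
    refine le_of_forall_pos_le_add fun ε hε => ?_
    have h2 := key (ε / (2 * (‖T‖ + 1))) (by positivity)
    have h3 : 2 * ‖T‖ * (ε / (2 * (‖T‖ + 1))) ≤ ε := by
      rw [mul_div_assoc', div_le_iff₀ (by positivity)]
      nlinarith [norm_nonneg T]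
    linarith
  exact sub_eq_zero.1 (norm_le_zero_iff.1 h0)

/-- a family of functions with `∑ |F_j|² ≤ C` on `A` -/
theorem sum_norm_bor_le (h : Pv P) {ι : Type*} (s : Finset ι) {F : ι → X → ℂ}
    (hF : ∀ i ∈ s, BM (F i)) {A : Set X} (hA : MeasurableSet A) {C : ℝ} (hC : 0 ≤ C)
    (hFC : ∀ x ∈ A, ∑ i ∈ s, ‖F i x‖ ^ 2 ≤ C) (ξ : K) :
    ∑ i ∈ s, ‖bor P (F i) (P A ξ)‖ ^ 2 ≤ C * ‖P A ξ‖ ^ 2 := by
  have hG : BM (fun x => ∑ i ∈ s, (starRingEnd ℂ) (F i x) * F i x) :=
    BM.sum s fun i hi => (hF i hi).star.mul (hF i hi)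
  set T : K →L[ℂ] K := bor P (fun x => ∑ i ∈ s, (starRingEnd ℂ) (F i x) * F i x) with hT
  have e1 : T = ∑ i ∈ s, star (bor P (F i)) * bor P (F i) := by
    rw [hT, bor_sum h s fun i hi => (hF i hi).star.mul (hF i hi)]
    refine Finset.sum_congr rfl fun i hi => ?_
    rw [bor_mul h (hF i hi).star (hF i hi), bor_star h (hF i hi)]
  have e2 : (∑ i ∈ s, ‖bor P (F i) (P A ξ)‖ ^ 2 : ℝ) = (⟪P A ξ, T (P A ξ)⟫_ℂ).re := by
    rw [e1, sum_apply, inner_sum, Complex.re_sum]
    refine Finset.sum_congr rfl fun i _ => ?_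
    have e3 : (star (bor P (F i)) * bor P (F i)) (P A ξ)
        = ContinuousLinearMap.adjoint (bor P (F i)) (bor P (F i) (P A ξ)) := rfl
    rw [e3, ContinuousLinearMap.adjoint_inner_right, inner_self_eq_norm_sq_to_K]
    norm_cast
  rw [e2]
  have h1 : ‖T (P A ξ)‖ ≤ C * ‖P A ξ‖ := norm_bor_apply_le h hG hA hC (fun x hx => by
    refine (norm_sum_le _ _).trans (le_trans (le_of_eq ?_) (hFC x hx))
    refine Finset.sum_congr rfl fun i _ => ?_
    rw [norm_mul, RCLike.norm_conj, sq]) ξ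
  calc (⟪P A ξ, T (P A ξ)⟫_ℂ).re ≤ ‖P A ξ‖ * ‖T (P A ξ)‖ :=
        (Complex.re_le_norm _).trans (norm_inner_le_norm _ _)
    _ ≤ ‖P A ξ‖ * (C * ‖P A ξ‖) := mul_le_mul_of_nonneg_left h1 (norm_nonneg _)
    _ = C * ‖P A ξ‖ ^ 2 := by ring

end api

end Vale.Agent.P092.H673.Bor
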