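import Vale.Agent.P092.H673.Bor
import Vale.Agent.P092.H466.Pvm2

/-!
P092 (helper673), TEAM N: the Borel functional calculus `bor (pv φ)` of a *-homomorphism
`φ : C(X, ℂ) →⋆ₐ[ℂ] (K →L[ℂ] K)` extends `φ`; functions which are continuous only on a closed
box `D`.
-/

set_option linter.unusedSectionVars false

namespace Vale.Agent.P092.H673.Bor

open MeasureTheory Vale.Agent.P092.H464 Vale.Agent.P092.H466
open scoped InnerProductSpace

variable {K : Type*} [NormedAddCommGroup K] [InnerProductSpace ℂ K] [CompleteSpace K]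
variable {X : Type*} [TopologicalSpace X] [CompactSpace X] [TopologicalSpace.MetrizableSpace X]
  [MeasurableSpace X] [BorelSpace X]

theorem isPv (φ : C(X, ℂ) →⋆ₐ[ℂ] (K →L[ℂ] K)) : Pv (pv φ) where
  sa A _ := pv_star φ A
  inter _ _ hA hB := pv_inter φ hA hB
  compl _ hA := pv_compl φ hA

theorem bm_cont (F : C(X, ℂ)) : BM (fun x => F x) :=
  ⟨F.continuous.measurable, ‖F‖, fun x => F.norm_coe_le_norm x⟩

theorem isB_phi (φ : C(X, ℂ) →⋆ₐ[ℂ] (K →L[ℂ] K)) (F : C(X, ℂ)) :
    IsB (pv φ) (fun x => F x) (φ F) := by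
  refine ⟨fun A _ => phi_pv_comm φ F A, fun A _ c ε hε hc => ?_⟩
  have e : (φ F - c • 1) * pv φ A = φ (F - algebraMap ℂ C(X, ℂ) c) * pv φ A := by
    rw [map_sub, AlgHomClass.commutes, Algebra.algebraMap_eq_smul_one]
  rw [e]
  refine ContinuousLinearMap.opNorm_le_bound _ hε (fun ξ => ?_)
  refine (norm_phi_pv_le φ (A := A) (f := F - algebraMap ℂ C(X, ℂ) c) hε (fun x hx => ?_)
    ξ).trans ?_
  · simpa using hc x hx
  · exact mul_le_mul_of_nonneg_left (norm_pv_le φ A ξ) hε

/-- `bor (pv φ)` extends `φ` -/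
theorem phi_eq_bor (φ : C(X, ℂ) →⋆ₐ[ℂ] (K →L[ℂ] K)) (F : C(X, ℂ)) :
    φ F = bor (pv φ) (fun x => F x) := eq_bor (isPv φ) (bm_cont F) (isB_phi φ F)

/-- a function continuous on a closed set, extended by zero -/
theorem bm_on {D : Set X} (hD : IsClosed D) {u : X → ℂ} (hu : ContinuousOn u D) :
    BM (D.indicator u) := by
  classical
  have h1 : Measurable (D.indicator u) := by
    have h2 : Measurable (D.piecewise u (fun _ => (0 : ℂ))) :=
      hu.measurable_piecewise continuousOn_const hD.measurableSet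
    have e : D.piecewise u (fun _ => (0 : ℂ)) = D.indicator u := Set.piecewise_eq_indicator
    rwa [e] at h2
  obtain ⟨C, hC⟩ := hD.isCompact.exists_bound_of_continuousOn hu
  refine ⟨h1, max C 0, fun x => ?_⟩
  by_cases hx : x ∈ D
  · rw [Set.indicator_of_mem hx]; exact (hC x hx).trans (le_max_left _ _)
  · rw [Set.indicator_of_notMem hx, norm_zero]; exact le_max_right _ _

/-- `φ F` on the box `D` is the integral of any function which equals `F` on `D` -/
theorem phi_pv_eq_bor (φ : C(X, ℂ) →⋆ₐ[ℂ] (K →L[ℂ] K)) (F : C(X, ℂ)) {D : Set X}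
    (hD : MeasurableSet D) {g : X → ℂ} (e : ∀ x ∈ D, F x = g x) :
    φ F * pv φ D = bor (pv φ) (D.indicator g) := by
  rw [phi_eq_bor φ F, ← bor_indicator (isPv φ) hD (bm_cont F)]
  refine bor_congr fun x => ?_
  by_cases hx : x ∈ D
  · rw [Set.indicator_of_mem hx, Set.indicator_of_mem hx, e x hx]
  · rw [Set.indicator_of_notMem hx, Set.indicator_of_notMem hx]

/-- commutation with a second calculus -/
theorem bor_comm_phi {Y : Type*} [TopologicalSpace Y] [CompactSpace Y]
    [TopologicalSpace.MetrizableSpace Y] [MeasurableSpace Y] [BorelSpace Y]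
    (φ : C(X, ℂ) →⋆ₐ[ℂ] (K →L[ℂ] K)) (ψ : C(Y, ℂ) →⋆ₐ[ℂ] (K →L[ℂ] K))
    (hc : ∀ A B, MeasurableSet A → MeasurableSet B → pv φ A * pv ψ B = pv ψ B * pv φ A)
    {f : X → ℂ} {g : Y → ℂ} (hf : BM f) (hg : BM g) :
    bor (pv φ) f * bor (pv ψ) g = bor (pv ψ) g * bor (pv φ) f := by
  refine bor_comm_of (isPv ψ) hg fun B hB => ?_
  exact (bor_comm_of (isPv φ) hf fun A hA => (hc A B hA hB).symm).symm

end Vale.Agent.P092.H673.Bor
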