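import Vale.Agent.P092.H673.PVl

noncomputable section

open Set

namespace Vale.Agent.P092.H673

theorem measurableSet_JJ : MeasurableSet JJ := by
  unfold JJ
  exact measurableSet_le (by fun_prop) (by fun_prop)

/-- normalised height over the line `g` -/
def hh (r : ℝ) (g : ℝ × ℝ) (x : ℝ × ℝ) : ℝ := (x.1 - (g.1 + g.2 * x.2)) / r

/-- index of the cell of level `n` -/
def kap (σ r : ℝ) (g : ℝ × ℝ) (n : ℕ) (x : ℝ × ℝ) : ℤ × ℤ :=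
  (⌊2 ^ n * (x.2 / σ)⌋, ⌊2 ^ n * hh r g x⌋)

def cell (σ r : ℝ) (g : ℝ × ℝ) (n : ℕ) (q : ℤ × ℤ) : Set (ℝ × ℝ) :=
  {x | x ∈ JJ ∧ kap σ r g n x = q}

theorem measurable_hh (r : ℝ) (g : ℝ × ℝ) : Measurable (hh r g) := by
  unfold hh; fun_prop

theorem measurable_kap (σ r : ℝ) (g : ℝ × ℝ) (n : ℕ) : Measurable (kap σ r g n) := by
  unfold kap
  refine Measurable.prodMk ?_ ?_
  · exact Int.measurable_floor.comp (by fun_prop)
  · exact Int.measurable_floor.comp ((measurable_hh r g).const_mul _)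

theorem measurableSet_cell (σ r : ℝ) (g : ℝ × ℝ) (n : ℕ) (q : ℤ × ℤ) :
    MeasurableSet (cell σ r g n q) := by
  have : cell σ r g n q = JJ ∩ (kap σ r g n) ⁻¹' {q} := rfl
  rw [this]
  exact measurableSet_JJ.inter (measurable_kap σ r g n (MeasurableSet.singleton q))

theorem cell_disj (σ r : ℝ) (g : ℝ × ℝ) (n : ℕ) {q q' : ℤ × ℤ} (h : q ≠ q') :
    Disjoint (cell σ r g n q) (cell σ r g n q') := by
  rw [Set.disjoint_left]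
  intro x hx hx'
  exact h (hx.2.symm.trans hx'.2)

theorem floor_half (n : ℕ) (t : ℝ) : ⌊2 ^ n * t⌋ = ⌊2 ^ (n + 1) * t⌋ / 2 := by
  rw [Int.floor_eq_iff]
  set m := ⌊2 ^ (n + 1) * t⌋ with hm
  have h1 : (m : ℝ) ≤ 2 ^ (n + 1) * t := Int.floor_le _
  have h2 : 2 ^ (n + 1) * t < m + 1 := Int.lt_floor_add_one _
  have h3 : 2 * (m / 2) ≤ m := by omega
  have h4 : m ≤ 2 * (m / 2) + 1 := by omega
  have h3' : (2 : ℝ) * ((m / 2 : ℤ) : ℝ) ≤ m := by exact_mod_cast h3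
  have h4' : (m : ℝ) ≤ 2 * ((m / 2 : ℤ) : ℝ) + 1 := by exact_mod_cast h4
  have h5 : (2 : ℝ) ^ (n + 1) * t = 2 * (2 ^ n * t) := by ring
  rw [h5] at h1 h2
  constructor <;> linarith

/-- parent -/
def par (q : ℤ × ℤ) : ℤ × ℤ := (q.1 / 2, q.2 / 2)

theorem kap_par (σ r : ℝ) (g : ℝ × ℝ) (n : ℕ) (x : ℝ × ℝ) :
    kap σ r g n x = par (kap σ r g (n + 1) x) := by
  unfold kap par
  rw [floor_half n, floor_half n]

theorem cell_par (σ r : ℝ) (g : ℝ × ℝ) (n : ℕ) (q : ℤ × ℤ) :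
    cell σ r g (n + 1) q ⊆ cell σ r g n (par q) := by
  rintro x ⟨h1, h2⟩
  exact ⟨h1, by rw [kap_par, h2]⟩

def QQ (a im ip : ℤ) (n : ℕ) : Finset (ℤ × ℤ) :=
  Finset.Ico (2 ^ n * a) (2 ^ n * (a + 1)) ×ˢ Finset.Ico (2 ^ n * im) (2 ^ n * ip)

def BB (σ r : ℝ) (g : ℝ × ℝ) (a im ip : ℤ) : Set (ℝ × ℝ) :=
  {x | x ∈ JJ ∧ ((a : ℝ) ≤ x.2 / σ ∧ x.2 / σ < a + 1) ∧ ((im : ℝ) ≤ hh r g x ∧ hh r g x < ip)}

theorem mem_Ico_floor (n : ℕ) (a b : ℤ) (t : ℝ) :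
    ⌊2 ^ n * t⌋ ∈ Finset.Ico (2 ^ n * a) (2 ^ n * b) ↔ (a : ℝ) ≤ t ∧ t < b := by
  have hp : (0 : ℝ) < 2 ^ n := by positivity
  rw [Finset.mem_Ico, Int.le_floor, Int.floor_lt]
  push_cast
  rw [mul_le_mul_iff_right₀ hp, mul_lt_mul_iff_right₀ hp]

theorem mem_QQ (σ r : ℝ) (g : ℝ × ℝ) (a im ip : ℤ) (n : ℕ) (x : ℝ × ℝ) :
    kap σ r g n x ∈ QQ a im ip n ↔
      ((a : ℝ) ≤ x.2 / σ ∧ x.2 / σ < a + 1) ∧ ((im : ℝ) ≤ hh r g x ∧ hh r g x < ip) := by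
  unfold QQ kap
  rw [Finset.mem_product, mem_Ico_floor, mem_Ico_floor]
  push_cast
  rfl

theorem BB_eq (σ r : ℝ) (g : ℝ × ℝ) (a im ip : ℤ) (n : ℕ) :
    BB σ r g a im ip = ⋃ q ∈ QQ a im ip n, cell σ r g n q := by
  ext x
  simp only [Set.mem_iUnion, exists_prop]
  constructor
  · rintro ⟨h1, h2⟩
    exact ⟨kap σ r g n x, (mem_QQ σ r g a im ip n x).2 h2, h1, rfl⟩
  · rintro ⟨q, hq, h1, h2⟩
    exact ⟨h1, (mem_QQ σ r g a im ip n x).1 (h2 ▸ hq)⟩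

theorem measurableSet_BB (σ r : ℝ) (g : ℝ × ℝ) (a im ip : ℤ) : MeasurableSet (BB σ r g a im ip) := by
  rw [BB_eq σ r g a im ip 0]
  exact Finset.measurableSet_biUnion _ fun q _ => measurableSet_cell σ r g 0 q

theorem card_QQ (a im ip : ℤ) (h : im ≤ ip) (n : ℕ) :
    ((QQ a im ip n).card : ℝ) = 4 ^ n * (ip - im : ℝ) := by
  unfold QQ
  rw [Finset.card_product, Int.card_Ico, Int.card_Ico]
  have hp : (0 : ℤ) < 2 ^ n := by positivity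
  have e1 : (2 : ℤ) ^ n * (a + 1) - 2 ^ n * a = 2 ^ n := by ring
  have e2 : (2 : ℤ) ^ n * ip - 2 ^ n * im = 2 ^ n * (ip - im) := by ring
  rw [e1, e2]
  have h1 : (((2 : ℤ) ^ n).toNat : ℝ) = 2 ^ n := by
    have : (((2 : ℤ) ^ n).toNat : ℤ) = 2 ^ n := Int.toNat_of_nonneg hp.le
    exact_mod_cast this
  have h2 : (((2 : ℤ) ^ n * (ip - im)).toNat : ℝ) = 2 ^ n * (ip - im) := by
    have : (((2 : ℤ) ^ n * (ip - im)).toNat : ℤ) = 2 ^ n * (ip - im) :=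
      Int.toNat_of_nonneg (mul_nonneg hp.le (by omega))
    exact_mod_cast this
  push_cast
  rw [h1, h2]
  have : (4 : ℝ) ^ n = 2 ^ n * 2 ^ n := by rw [← mul_pow]; norm_num
  rw [this]; ring

theorem par_QQ (a im ip : ℤ) (n : ℕ) {q : ℤ × ℤ} (hq : q ∈ QQ a im ip (n + 1)) :
    par q ∈ QQ a im ip n := by
  unfold QQ at hq ⊢
  unfold par
  rw [Finset.mem_product, Finset.mem_Ico, Finset.mem_Ico] at hq ⊢
  have e : ∀ z : ℤ, (2 : ℤ) ^ (n + 1) * z = 2 * (2 ^ n * z) := fun z => by ring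
  rw [e, e, e, e] at hq
  obtain ⟨⟨h1, h2⟩, h3, h4⟩ := hq
  refine ⟨⟨?_, ?_⟩, ?_, ?_⟩
  · simp only; omega
  · simp only; omega
  · simp only; omega
  · simp only; omega

end Vale.Agent.P092.H673
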