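import Vale.Agent.P092.H673.Cell

noncomputable section

open Set

namespace Vale.Agent.P092.H673

variable {K : Type*} [NormedAddCommGroup K] [InnerProductSpace ℂ K] [CompleteSpace K]

/-- value of `F` at a point of the cell -/
def val (σ r : ℝ) (g : ℝ × ℝ) (F : ℝ × ℝ → ℂ) (n : ℕ) (q : ℤ × ℤ) : ℂ :=
  open Classical in
  if h : (cell σ r g n q).Nonempty then F h.choose else 0

theorem val_norm (σ r : ℝ) (g : ℝ × ℝ) (F : ℝ × ℝ → ℂ) (hF1 : ∀ x ∈ JJ, ‖F x‖ ≤ 1) (n : ℕ)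
    (q : ℤ × ℤ) : ‖val σ r g F n q‖ ≤ 1 := by
  unfold val
  split_ifs with h
  · exact hF1 _ h.choose_spec.1
  · simp

theorem val_near (σ r : ℝ) (g : ℝ × ℝ) (F : ℝ × ℝ → ℂ) (n : ℕ) (q : ℤ × ℤ) (δ : ℝ)
    (h : ∀ x ∈ cell σ r g n q, ∀ x' ∈ cell σ r g n q, ‖F x - F x'‖ ≤ δ)
    {x : ℝ × ℝ} (hx : x ∈ cell σ r g n q) : ‖F x - val σ r g F n q‖ ≤ δ := by
  unfold val
  have hn : (cell σ r g n q).Nonempty := ⟨x, hx⟩
  rw [dif_pos hn]
  exact h x hx _ hn.choose_spec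

theorem val_par (σ r : ℝ) (g : ℝ × ℝ) (F : ℝ × ℝ → ℂ) (n : ℕ) (q : ℤ × ℤ) (δ : ℝ)
    (h : ∀ x ∈ cell σ r g n (par q), ∀ x' ∈ cell σ r g n (par q), ‖F x - F x'‖ ≤ δ)
    (hne : (cell σ r g (n + 1) q).Nonempty) :
    ‖val σ r g F (n + 1) q - val σ r g F n (par q)‖ ≤ δ := by
  have hx := cell_par σ r g n q hne.choose_spec
  have h1 : val σ r g F (n + 1) q = F hne.choose := by unfold val; rw [dif_pos hne]
  rw [h1]
  exact val_near σ r g F n (par q) δ h hx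

variable (σ r : ℝ) (g : ℝ × ℝ) (F : ℝ × ℝ → ℂ) (a im ip : ℤ)
  (b : Set (ℝ × ℝ) → (K →L[ℂ] K)) (hb : PV b)

/-- the approximation of level `n` -/
def Xn (n : ℕ) (w : K) : K :=
  ∑ q ∈ QQ a im ip n, val σ r g F n q • b (cell σ r g n q) w

include hb in
theorem b_cell_par (n : ℕ) (q' : ℤ × ℤ) (hq' : q' ∈ QQ a im ip n) :
    b (cell σ r g n q') =
      ∑ q ∈ (QQ a im ip (n + 1)).filter (fun q => par q = q'), b (cell σ r g (n + 1) q) := by
  have hset : cell σ r g n q' =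
      ⋃ q ∈ (QQ a im ip (n + 1)).filter (fun q => par q = q'), cell σ r g (n + 1) q := by
    ext x
    simp only [Set.mem_iUnion, exists_prop, Finset.mem_filter]
    constructor
    · rintro ⟨h1, h2⟩
      refine ⟨kap σ r g (n + 1) x, ⟨?_, ?_⟩, h1, rfl⟩
      · rw [mem_QQ, ← mem_QQ σ r g a im ip n, h2]; exact hq'
      · rw [← kap_par, h2]
    · rintro ⟨q, ⟨_, hq2⟩, h1, h2⟩
      exact ⟨h1, by rw [kap_par, h2, hq2]⟩
  conv_lhs => rw [hset]
  exact hb.biUnion _ _ (fun q _ => measurableSet_cell σ r g (n + 1) q)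
    (fun q _ q' _ h => cell_disj σ r g (n + 1) h)

include hb in
theorem Xn_refine (n : ℕ) (w : K) :
    Xn σ r g F a im ip b n w =
      ∑ q ∈ QQ a im ip (n + 1), val σ r g F n (par q) • b (cell σ r g (n + 1) q) w := by
  unfold Xn
  have hmap : ∀ q ∈ QQ a im ip (n + 1), par q ∈ QQ a im ip n := fun q hq => par_QQ a im ip n hq
  rw [← Finset.sum_fiberwise_of_maps_to hmap]
  refine Finset.sum_congr rfl fun q' hq' => ?_
  rw [b_cell_par σ r g a im ip b hb n q' hq', sum_apply, Finset.smul_sum]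
  refine Finset.sum_congr rfl fun q hq => ?_
  rw [(Finset.mem_filter.1 hq).2]

/-- difference of two levels (`n = 0`: the first approximation) -/
def Dc (n : ℕ) (q : ℤ × ℤ) : ℂ :=
  match n with
  | 0 => val σ r g F 0 q
  | n + 1 => val σ r g F (n + 1) q - val σ r g F n (par q)

def Dn (n : ℕ) (w : K) : K :=
  ∑ q ∈ QQ a im ip n, Dc σ r g F n q • b (cell σ r g n q) w

include hb in
theorem Xn_eq_sum (T : ℕ) (w : K) :
    Xn σ r g F a im ip b T w = ∑ n ∈ Finset.range (T + 1), Dn σ r g F a im ip b n w := by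
  induction T with
  | zero => simp [Xn, Dn, Dc]
  | succ T ih =>
    rw [Finset.sum_range_succ, ← ih, Xn_refine σ r g F a im ip b hb T w]
    unfold Xn Dn Dc
    rw [← Finset.sum_add_distrib]
    refine Finset.sum_congr rfl fun q _ => ?_
    rw [sub_smul]; abel

variable (ω : ℝ) (hω : 1 ≤ ω) (hF1 : ∀ x ∈ JJ, ‖F x‖ ≤ 1)
  (hosc : ∀ n q, ∀ x ∈ cell σ r g n q, ∀ x' ∈ cell σ r g n q, ‖F x - F x'‖ ≤ ω * (1 / 2) ^ n)

include hω hF1 hosc in
theorem Dc_bound (n : ℕ) (q : ℤ × ℤ) (hne : (cell σ r g n q).Nonempty) :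
    ‖Dc σ r g F n q‖ ≤ 2 * ω * (1 / 2) ^ n := by
  cases n with
  | zero =>
    have := val_norm σ r g F hF1 0 q
    simp only [Dc, pow_zero, mul_one]
    linarith
  | succ n =>
    have := val_par σ r g F n q _ (hosc n (par q)) hne
    simp only [Dc]
    refine this.trans (le_of_eq ?_)
    rw [pow_succ]; ring

include hb hω hF1 hosc in
theorem A_Dn (A : K →L[ℂ] K) (him : im ≤ ip) (n : ℕ) (w : K) :
    ‖A (Dn σ r g F a im ip b n w)‖ ^ 2 ≤
      (ip - im : ℝ) * (4 * ω ^ 2) * ∑ q ∈ QQ a im ip n, ‖A (b (cell σ r g n q) w)‖ ^ 2 := by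
  unfold Dn
  rw [map_sum]
  have h1 : ‖∑ q ∈ QQ a im ip n, A (Dc σ r g F n q • b (cell σ r g n q) w)‖ ≤
      ∑ q ∈ QQ a im ip n, 2 * ω * (1 / 2) ^ n * ‖A (b (cell σ r g n q) w)‖ := by
    refine (norm_sum_le _ _).trans (Finset.sum_le_sum fun q _ => ?_)
    rw [map_smul, norm_smul]
    by_cases hne : (cell σ r g n q).Nonempty
    · exact mul_le_mul_of_nonneg_right (Dc_bound σ r g F ω hω hF1 hosc n q hne) (norm_nonneg _)
    · rw [Set.not_nonempty_iff_eq_empty.1 hne, hb.empty]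
      simp
  have h2 : (∑ q ∈ QQ a im ip n, 2 * ω * (1 / 2) ^ n * ‖A (b (cell σ r g n q) w)‖) ^ 2 ≤
      (QQ a im ip n).card * ∑ q ∈ QQ a im ip n, (2 * ω * (1 / 2) ^ n * ‖A (b (cell σ r g n q) w)‖) ^ 2 :=
    sq_sum_le_card_mul_sum_sq
  refine (pow_le_pow_left₀ (norm_nonneg _) h1 2).trans (h2.trans (le_of_eq ?_))
  rw [card_QQ a im ip him n, Finset.mul_sum, Finset.mul_sum]
  refine Finset.sum_congr rfl fun q _ => ?_
  have h4 : (4 : ℝ) ^ n * ((1 / 2) ^ n) ^ 2 = 1 := by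
    rw [← pow_mul, mul_comm n 2, pow_mul, ← mul_pow]; norm_num
  calc 4 ^ n * (ip - im : ℝ) * (2 * ω * (1 / 2) ^ n * ‖A (b (cell σ r g n q) w)‖) ^ 2
      = (4 ^ n * ((1 / 2) ^ n) ^ 2) * ((ip - im : ℝ) * (4 * ω ^ 2) * ‖A (b (cell σ r g n q) w)‖ ^ 2) := by
        ring
    _ = _ := by rw [h4, one_mul]

variable (Fo : K →L[ℂ] K) (hFb : ∀ s, MeasurableSet s → Fo * b s = b s * Fo)
  (hFa : ∀ s, MeasurableSet s → s ⊆ JJ → ∀ (a : ℂ) (δ : ℝ),
    (∀ x ∈ s, ‖F x - a‖ ≤ δ) → ∀ ζ, ‖Fo (b s ζ) - a • b s ζ‖ ≤ δ * ‖b s ζ‖)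

include hb hω hosc hFb hFa in
theorem rem_bound (T : ℕ) (w : K) :
    ‖Fo (b (BB σ r g a im ip) w) - Xn σ r g F a im ip b T w‖ ^ 2 ≤
      (ω * (1 / 2) ^ T) ^ 2 * ‖b (BB σ r g a im ip) w‖ ^ 2 := by
  have hm : ∀ q ∈ QQ a im ip T, MeasurableSet (cell σ r g T q) :=
    fun q _ => measurableSet_cell σ r g T q
  have hd : ∀ q ∈ QQ a im ip T, ∀ q' ∈ QQ a im ip T, q ≠ q' →
      Disjoint (cell σ r g T q) (cell σ r g T q') := fun q _ q' _ h => cell_disj σ r g T h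
  have hB : b (BB σ r g a im ip) w = ∑ q ∈ QQ a im ip T, b (cell σ r g T q) w := by
    rw [BB_eq σ r g a im ip T, hb.biUnion _ _ hm hd, sum_apply]
  have hpt : ∀ q, Fo (b (cell σ r g T q) w) - val σ r g F T q • b (cell σ r g T q) w =
      b (cell σ r g T q) (Fo (b (cell σ r g T q) w) - val σ r g F T q • b (cell σ r g T q) w) := by
    intro q
    have hmq := measurableSet_cell σ r g T q
    rw [map_sub, map_smul]
    have e1 : b (cell σ r g T q) (b (cell σ r g T q) w) = b (cell σ r g T q) w := by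
      rw [hb.apply2 hmq hmq, Set.inter_self]
    have e2 : b (cell σ r g T q) (Fo (b (cell σ r g T q) w)) = Fo (b (cell σ r g T q) w) := by
      have := congrArg (fun B : K →L[ℂ] K => B (b (cell σ r g T q) w)) (hFb _ hmq)
      simp only [ContinuousLinearMap.mul_def, ContinuousLinearMap.comp_apply] at this
      rw [← this, e1]
    rw [e1, e2]
  have hsum : Fo (b (BB σ r g a im ip) w) - Xn σ r g F a im ip b T w =
      ∑ q ∈ QQ a im ip T, b (cell σ r g T q)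
        (Fo (b (cell σ r g T q) w) - val σ r g F T q • b (cell σ r g T q) w) := by
    rw [hB, map_sum, Xn, ← Finset.sum_sub_distrib]
    exact Finset.sum_congr rfl fun q _ => hpt q
  rw [hsum, hb.norm_comb _ _ hm hd, BB_eq σ r g a im ip T, ← hb.sum_normSq _ _ hm hd, Finset.mul_sum]
  refine Finset.sum_le_sum fun q _ => ?_
  rw [← hpt q]
  have h1 : ‖Fo (b (cell σ r g T q) w) - val σ r g F T q • b (cell σ r g T q) w‖ ≤
      ω * (1 / 2) ^ T * ‖b (cell σ r g T q) w‖ :=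
    hFa _ (measurableSet_cell σ r g T q) (fun x hx => hx.1) _ _
      (fun x hx => val_near σ r g F T q _ (hosc T q) hx) w
  calc _ ≤ (ω * (1 / 2) ^ T * ‖b (cell σ r g T q) w‖) ^ 2 :=
        pow_le_pow_left₀ (norm_nonneg _) h1 2
    _ = _ := by ring

include hb hω hF1 hosc hFb hFa in
/-- chaining for one strip and one `p`-interval -/
theorem chain_one (A : K →L[ℂ] K) (hA1 : ∀ ζ, ‖A ζ‖ ≤ ‖ζ‖) (him : im ≤ ip) (T : ℕ) (w : K) :
    ‖A (Fo (b (BB σ r g a im ip) w))‖ ^ 2 ≤ (T + 2 : ℝ) *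
      ((ip - im : ℝ) * (4 * ω ^ 2) * (∑ n ∈ Finset.range (T + 1), ∑ q ∈ QQ a im ip n,
          ‖A (b (cell σ r g n q) w)‖ ^ 2) +
        (ω * (1 / 2) ^ T) ^ 2 * ‖b (BB σ r g a im ip) w‖ ^ 2) := by
  set Y : ℕ → K := fun n => if n ≤ T then Dn σ r g F a im ip b n w
    else Fo (b (BB σ r g a im ip) w) - Xn σ r g F a im ip b T w with hY
  have hYsum : Fo (b (BB σ r g a im ip) w) = ∑ n ∈ Finset.range (T + 2), Y n := by
    rw [Finset.sum_range_succ]
    have e1 : ∑ n ∈ Finset.range (T + 1), Y n = Xn σ r g F a im ip b T w := by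
      rw [Xn_eq_sum σ r g F a im ip b hb T w]
      refine Finset.sum_congr rfl fun n hn => ?_
      rw [Finset.mem_range] at hn
      simp only [hY]
      rw [if_pos (by omega)]
    have e2 : Y (T + 1) = Fo (b (BB σ r g a im ip) w) - Xn σ r g F a im ip b T w := by
      simp only [hY]
      rw [if_neg (by omega)]
    rw [e1, e2]; abel
  have h1 : ‖A (Fo (b (BB σ r g a im ip) w))‖ ≤ ∑ n ∈ Finset.range (T + 2), ‖A (Y n)‖ := by
    rw [hYsum, map_sum]; exact norm_sum_le _ _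
  have h2 : (∑ n ∈ Finset.range (T + 2), ‖A (Y n)‖) ^ 2 ≤
      (Finset.range (T + 2)).card * ∑ n ∈ Finset.range (T + 2), ‖A (Y n)‖ ^ 2 :=
    sq_sum_le_card_mul_sum_sq
  rw [Finset.card_range] at h2
  refine (pow_le_pow_left₀ (norm_nonneg _) h1 2).trans (h2.trans ?_)
  push_cast
  refine mul_le_mul_of_nonneg_left ?_ (by positivity)
  rw [Finset.sum_range_succ]
  refine add_le_add ?_ ?_
  · rw [Finset.mul_sum]
    refine Finset.sum_le_sum fun n hn => ?_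
    rw [Finset.mem_range] at hn
    have : Y n = Dn σ r g F a im ip b n w := by
      simp only [hY]; rw [if_pos (by omega)]
    rw [this]
    exact A_Dn σ r g F a im ip b hb ω hω hF1 hosc A him n w
  · have : Y (T + 1) = Fo (b (BB σ r g a im ip) w) - Xn σ r g F a im ip b T w := by
      simp only [hY]; rw [if_neg (by omega)]
    rw [this]
    exact (pow_le_pow_left₀ (norm_nonneg _) (hA1 _) 2).trans
      (rem_bound σ r g F a im ip b hb ω hω hosc Fo hFb hFa T w)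

end Vale.Agent.P092.H673
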