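import Vale.Agent.P092.H673.Chain

noncomputable section

open Set

namespace Vale.Agent.P092.H673

variable {K : Type*} [NormedAddCommGroup K] [InnerProductSpace ℂ K] [CompleteSpace K]

/-- the part of `JJ` over the `a`-th interval of length `σ` -/
def JA (σ : ℝ) (a : ℤ) : Set (ℝ × ℝ) := {x | x ∈ JJ ∧ (a : ℝ) ≤ x.2 / σ ∧ x.2 / σ < a + 1}

theorem measurableSet_JA (σ : ℝ) (a : ℤ) : MeasurableSet (JA σ a) := by
  have h1 : MeasurableSet {x : ℝ × ℝ | (a : ℝ) ≤ x.2 / σ} :=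
    measurableSet_le (by fun_prop) (by fun_prop)
  have h2 : MeasurableSet {x : ℝ × ℝ | x.2 / σ < (a : ℝ) + 1} :=
    measurableSet_lt (by fun_prop) (by fun_prop)
  exact measurableSet_JJ.inter (h1.inter h2)

theorem JA_disj (σ : ℝ) {a a' : ℤ} (h : a ≠ a') : Disjoint (JA σ a) (JA σ a') := by
  rw [Set.disjoint_left]
  rintro x ⟨_, h1, h2⟩ ⟨_, h3, h4⟩
  apply h
  have e1 : ⌊x.2 / σ⌋ = a := Int.floor_eq_iff.2 ⟨h1, h2⟩
  have e2 : ⌊x.2 / σ⌋ = a' := Int.floor_eq_iff.2 ⟨h3, h4⟩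
  rw [← e1, e2]

def A0 (σ : ℝ) : Finset ℤ := Finset.Icc ⌊-1 / σ⌋ ⌊1 / σ⌋

theorem JJ_eq (σ : ℝ) (hσ : 0 < σ) : JJ = ⋃ a ∈ A0 σ, JA σ a := by
  ext x
  simp only [Set.mem_iUnion, exists_prop]
  constructor
  · intro hx
    refine ⟨⌊x.2 / σ⌋, ?_, hx, Int.floor_le _, Int.lt_floor_add_one _⟩
    have h := abs_le.1 (show |x.2| ≤ 1 from hx)
    rw [A0, Finset.mem_Icc]
    exact ⟨Int.floor_le_floor (div_le_div_of_nonneg_right h.1 hσ.le),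
      Int.floor_le_floor (div_le_div_of_nonneg_right h.2 hσ.le)⟩
  · rintro ⟨a, _, hx, _⟩; exact hx

/-- the inserted sets -/
def TT (C₁ σ : ℝ) (a : ℤ) : Set (ℝ × ℝ) := {z | (a - C₁) * σ ≤ z.2 ∧ z.2 ≤ (a + 1 + C₁) * σ}

theorem measurableSet_TT (C₁ σ : ℝ) (a : ℤ) : MeasurableSet (TT C₁ σ a) := by
  have h1 : MeasurableSet {z : ℝ × ℝ | (a - C₁) * σ ≤ z.2} :=
    measurableSet_le (by fun_prop) (by fun_prop)
  have h2 : MeasurableSet {z : ℝ × ℝ | z.2 ≤ (a + 1 + C₁) * σ} :=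
    measurableSet_le (by fun_prop) (by fun_prop)
  exact h1.inter h2

theorem TT_disj (C₁ σ : ℝ) (hσ : 0 < σ) {a a' : ℤ} {R : ℕ} (hR : 2 * C₁ + 2 ≤ R)
    (h : (R : ℤ) ≤ |a - a'|) : Disjoint (TT C₁ σ a) (TT C₁ σ a') := by
  rw [Set.disjoint_left]
  rintro z ⟨h1, h2⟩ ⟨h3, h4⟩
  have h5 : ((a : ℝ) - C₁) * σ ≤ (a' + 1 + C₁) * σ := h1.trans h4
  have h6 : ((a' : ℝ) - C₁) * σ ≤ (a + 1 + C₁) * σ := h3.trans h2
  have h5' := le_of_mul_le_mul_right h5 hσ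
  have h6' := le_of_mul_le_mul_right h6 hσ
  have h7 : (R : ℝ) ≤ |(a : ℝ) - a'| := by exact_mod_cast h
  have h8 : |(a : ℝ) - a'| ≤ 2 * C₁ + 1 := by
    rw [abs_le]; constructor <;> linarith
  linarith

def cc (r σ : ℝ) (g y : ℝ × ℝ) (a : ℤ) : ℝ := (y.1 - g.1 + (y.2 - g.2) * (a * σ)) / r

def imk (C₁ r σ : ℝ) (g y : ℝ × ℝ) (a : ℤ) : ℤ := ⌊cc r σ g y a - (C₁ + 1)⌋
def ipk (C₁ r σ : ℝ) (g y : ℝ × ℝ) (a : ℤ) : ℤ := ⌊cc r σ g y a + (C₁ + 1)⌋ + 1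

theorem imk_le (C₁ r σ : ℝ) (hC : 1 ≤ C₁) (g y : ℝ × ℝ) (a : ℤ) :
    imk C₁ r σ g y a ≤ ipk C₁ r σ g y a := by
  unfold imk ipk
  have : ⌊cc r σ g y a - (C₁ + 1)⌋ ≤ ⌊cc r σ g y a + (C₁ + 1)⌋ :=
    Int.floor_le_floor (by linarith)
  omega

theorem ipk_sub (C₁ r σ : ℝ) (hC : 1 ≤ C₁) (g y : ℝ × ℝ) (a : ℤ) :
    ((ipk C₁ r σ g y a : ℝ) - imk C₁ r σ g y a) ≤ 6 * C₁ := by
  unfold imk ipk
  have h1 := Int.floor_le (cc r σ g y a + (C₁ + 1))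
  have h2 := Int.lt_floor_add_one (cc r σ g y a - (C₁ + 1))
  push_cast
  linarith

variable {ι : Type*} {C₁ : ℝ} {b c : Set (ℝ × ℝ) → (K →L[ℂ] K)} {L : K →L[ℂ] K}
    {r ρ : ℝ} {g : ℝ × ℝ} {S : Finset ι} {y : ι → ℝ × ℝ} {A Fo : ι → (K →L[ℂ] K)}
    {F : ι → ℝ × ℝ → ℂ} {N : ℝ} (H : CoreHyp C₁ b c L r ρ g S y A Fo F N)
include H

theorem sig_pos : 0 < r / ρ := div_pos H.hr (H.hr.trans_le H.hρ)
theorem sig_le : r / ρ ≤ 1 := (div_le_one (H.hr.trans_le H.hρ)).2 H.hρ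

theorem osc (k : ι) (hk : k ∈ S) (n : ℕ) (q : ℤ × ℤ) :
    ∀ x ∈ cell (r / ρ) r g n q, ∀ x' ∈ cell (r / ρ) r g n q,
      ‖F k x - F k x'‖ ≤ 3 * C₁ * (1 / 2) ^ n := by
  rintro x ⟨hx, hxq⟩ x' ⟨hx', hxq'⟩
  have hρ : 0 < ρ := H.hr.trans_le H.hρ
  have hσ := sig_pos H
  have hC0 : 0 < C₁ := lt_of_lt_of_le one_pos H.hC
  have hp : (0 : ℝ) < 2 ^ n := by positivity
  have hhalf : (1 / 2 : ℝ) ^ n = 1 / 2 ^ n := by rw [div_pow, one_pow]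
  have hq1 : ⌊2 ^ n * (x.2 / (r / ρ))⌋ = ⌊2 ^ n * (x'.2 / (r / ρ))⌋ :=
    congrArg Prod.fst (hxq.trans hxq'.symm)
  have hq2 : ⌊2 ^ n * hh r g x⌋ = ⌊2 ^ n * hh r g x'⌋ :=
    congrArg Prod.snd (hxq.trans hxq'.symm)
  have a1 := (Int.abs_sub_lt_one_of_floor_eq_floor hq1).le
  have a2 := (Int.abs_sub_lt_one_of_floor_eq_floor hq2).le
  rw [← mul_sub, abs_mul, abs_of_pos hp] at a1 a2
  have b1 : |x.2 - x'.2| ≤ (r / ρ) * (1 / 2) ^ n := by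
    rw [← sub_div, abs_div, abs_of_pos hσ] at a1
    rw [hhalf]
    have : |x.2 - x'.2| / (r / ρ) ≤ 1 / 2 ^ n := by rw [le_div_iff₀ hp]; linarith
    rwa [div_le_iff₀ hσ, mul_comm] at this
  have b2 : |hh r g x - hh r g x'| ≤ (1 / 2) ^ n := by
    rw [hhalf, le_div_iff₀ hp]; linarith
  have key : ((x.1 - ((y k).1 + (y k).2 * x.2)) - (x'.1 - ((y k).1 + (y k).2 * x'.2))) =
      r * (hh r g x - hh r g x') - ((y k).2 - g.2) * (x.2 - x'.2) := by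
    unfold hh
    field_simp [H.hr.ne']
    ring
  have b3 : |(x.1 - ((y k).1 + (y k).2 * x.2)) - (x'.1 - ((y k).1 + (y k).2 * x'.2))| / r ≤
      2 * (1 / 2) ^ n := by
    rw [key, div_le_iff₀ H.hr]
    have c1 : |r * (hh r g x - hh r g x') - ((y k).2 - g.2) * (x.2 - x'.2)| ≤
        r * |hh r g x - hh r g x'| + |(y k).2 - g.2| * |x.2 - x'.2| := by
      refine (abs_sub _ _).trans ?_
      rw [abs_mul, abs_mul, abs_of_pos H.hr]
    have c2 : |(y k).2 - g.2| * |x.2 - x'.2| ≤ ρ * ((r / ρ) * (1 / 2) ^ n) :=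
      mul_le_mul (H.hy k hk) b1 (abs_nonneg _) hρ.le
    have c3 : ρ * ((r / ρ) * (1 / 2) ^ n) = r * (1 / 2) ^ n := by
      field_simp
    have c4 : r * |hh r g x - hh r g x'| ≤ r * (1 / 2) ^ n :=
      mul_le_mul_of_nonneg_left b2 H.hr.le
    rw [c3] at c2
    linarith
  have b4 : |x.2 - x'.2| ≤ (1 / 2) ^ n := by
    refine b1.trans ?_
    have : (0 : ℝ) ≤ (1 / 2) ^ n := by positivity
    calc (r / ρ) * (1 / 2) ^ n ≤ 1 * (1 / 2) ^ n := mul_le_mul_of_nonneg_right (sig_le H) this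
      _ = _ := one_mul _
  refine (H.hFl k hk x hx x' hx').trans ?_
  calc C₁ * (|(x.1 - ((y k).1 + (y k).2 * x.2)) - (x'.1 - ((y k).1 + (y k).2 * x'.2))| / r
      + |x.2 - x'.2|) ≤ C₁ * (2 * (1 / 2) ^ n + (1 / 2) ^ n) :=
        mul_le_mul_of_nonneg_left (add_le_add b3 b4) hC0.le
    _ = _ := by ring

/-- a point of the strip over the `a`-th interval lies in the box -/
theorem strip_box (k : ι) (hk : k ∈ S) (a : ℤ) {x : ℝ × ℝ} (hx : x ∈ JA (r / ρ) a)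
    (hs : x ∈ strip (y k) (C₁ * r)) :
    x ∈ BB (r / ρ) r g a (imk C₁ r (r / ρ) g (y k) a) (ipk C₁ r (r / ρ) g (y k) a) := by
  obtain ⟨hJ, h1, h2⟩ := hx
  have hρ : 0 < ρ := H.hr.trans_le H.hρ
  have hσ := sig_pos H
  refine ⟨hJ, ⟨h1, h2⟩, ?_⟩
  have k1 : |hh r g x - cc r (r / ρ) g (y k) a| ≤ C₁ + 1 := by
    have e : hh r g x - cc r (r / ρ) g (y k) a =
        ((x.1 - ((y k).1 + (y k).2 * x.2)) + ((y k).2 - g.2) * (x.2 - a * (r / ρ))) / r := by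
      unfold hh cc; rw [← sub_div]; congr 1; ring
    rw [e, abs_div, abs_of_pos H.hr, div_le_iff₀ H.hr]
    have c1 : |x.2 - a * (r / ρ)| ≤ r / ρ := by
      rw [le_div_iff₀ hσ] at h1
      rw [div_lt_iff₀ hσ] at h2
      rw [abs_le]; constructor <;> nlinarith
    have c2 : |((y k).2 - g.2) * (x.2 - a * (r / ρ))| ≤ ρ * (r / ρ) := by
      rw [abs_mul]; exact mul_le_mul (H.hy k hk) c1 (abs_nonneg _) hρ.le
    have c3 : ρ * (r / ρ) = r := by field_simp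
    rw [c3] at c2
    refine (abs_add_le _ _).trans ?_
    have := hs.1
    linarith
  rw [abs_le] at k1
  constructor
  · unfold imk
    exact (Int.floor_le _).trans (by linarith)
  · unfold ipk
    push_cast
    exact lt_of_le_of_lt (by linarith) (Int.lt_floor_add_one _)

theorem BB_sub_JA (a im ip : ℤ) : BB (r / ρ) r g a im ip ⊆ JA (r / ρ) a :=
  fun _ hx => ⟨hx.1, hx.2.1⟩

/-- `Fo` vanishes where `F` does -/
theorem Fo_zero (k : ι) (hk : k ∈ S) {s : Set (ℝ × ℝ)} (hs : MeasurableSet s) (hsJ : s ⊆ JJ)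
    (h0 : ∀ x ∈ s, F k x = 0) (w : K) : Fo k (b s w) = 0 := by
  have := H.hFa k hk s hs hsJ 0 0 (fun x hx => by rw [h0 x hx]; simp) w
  simpa using this

theorem Fo_cut (k : ι) (hk : k ∈ S) {s t : Set (ℝ × ℝ)} (hs : MeasurableSet s)
    (ht : MeasurableSet t) (hst : s ⊆ t) (htJ : t ⊆ JJ) (h0 : ∀ x ∈ t, x ∉ s → F k x = 0) (w : K) :
    Fo k (b t w) = Fo k (b s w) := by
  have e : t = s ∪ (t \ s) := (Set.union_sdiff_cancel hst).symm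
  have h1 : b t = b s + b (t \ s) := by
    conv_lhs => rw [e]
    exact H.hb.2.2 s (t \ s) hs (ht.diff hs) Set.disjoint_sdiff_right
  rw [h1, add_apply, map_add,
    Fo_zero H k hk (ht.diff hs) (fun x hx => htJ hx.1) (fun x hx => h0 x hx.1 hx.2) w, add_zero]

/-- the piece over the `a`-th interval -/
theorem piece_box (k : ι) (hk : k ∈ S) (a : ℤ) (w : K) :
    Fo k (b (JA (r / ρ) a) w) =
      Fo k (b (BB (r / ρ) r g a (imk C₁ r (r / ρ) g (y k) a) (ipk C₁ r (r / ρ) g (y k) a)) w) := by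
  refine Fo_cut H k hk (measurableSet_BB _ _ _ _ _ _) (measurableSet_JA _ _) (BB_sub_JA H _ _ _)
    (fun x hx => hx.1) (fun x hx hn => ?_) w
  refine H.hF0 k hk x hx.1 (fun hs => hn (strip_box H k hk a hx hs))

theorem measurableSet_strip' (k : ι) : MeasurableSet (strip (y k) (C₁ * r)) := by
  have h1 : MeasurableSet {x : ℝ × ℝ | |x.1 - ((y k).1 + (y k).2 * x.2)| ≤ C₁ * r} :=
    measurableSet_le (by fun_prop) (by fun_prop)
  exact h1.inter measurableSet_JJ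

/-- insertion -/
theorem piece_ins (k : ι) (hk : k ∈ S) (a : ℤ) (ζ : K) :
    c (TT C₁ (r / ρ) a) (A k (Fo k (b (JA (r / ρ) a) (L ζ)))) =
      A k (Fo k (b (JA (r / ρ) a) (L ζ))) := by
  have hσ := sig_pos H
  set s : Set (ℝ × ℝ) := JA (r / ρ) a ∩ strip (y k) (C₁ * r) with hs_def
  have hs : MeasurableSet s := (measurableSet_JA _ _).inter (measurableSet_strip' H k)
  have e1 : Fo k (b (JA (r / ρ) a) (L ζ)) = Fo k (b s (L ζ)) :=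
    Fo_cut H k hk hs (measurableSet_JA _ _) Set.inter_subset_left (fun x hx => hx.1)
      (fun x hx hn => H.hF0 k hk x hx.1 (fun h => hn ⟨hx, h⟩)) (L ζ)
  have e2 : Fo k (b s (L ζ)) = L (b s (Fo k ζ)) := by
    have h1 : (b s) (L ζ) = L (b s ζ) := congrArg (fun B : K →L[ℂ] K => B ζ) (H.hbL s hs)
    have h2 : Fo k (L (b s ζ)) = L (Fo k (b s ζ)) :=
      congrArg (fun B : K →L[ℂ] K => B (b s ζ)) (H.hFL k hk)
    have h3 : Fo k (b s ζ) = b s (Fo k ζ) := congrArg (fun B : K →L[ℂ] K => B ζ) (H.hFb k hk s hs)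
    rw [h1, h2, h3]
  rw [e1, e2]
  have h4 := H.hins k hk s (TT C₁ (r / ρ) a) hs (measurableSet_TT _ _ _) Set.inter_subset_right
    (fun x hx z hz => by
      obtain ⟨⟨_, h1, h2⟩, _⟩ := hx
      rw [le_div_iff₀ hσ] at h1
      rw [div_lt_iff₀ hσ] at h2
      rw [abs_le] at hz
      constructor <;> nlinarith)
  exact congrArg (fun B : K →L[ℂ] K => B (Fo k ζ)) h4

/-- orthogonality in `a` -/
theorem sum_pieces (k : ι) (hk : k ∈ S) (ζ : K) :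
    ‖A k (Fo k (b JJ (L ζ)))‖ ^ 2 ≤
      9 * C₁ * ∑ a ∈ A0 (r / ρ), ‖A k (Fo k (b (JA (r / ρ) a) (L ζ)))‖ ^ 2 := by
  have hσ := sig_pos H
  have hC0 : 0 < C₁ := lt_of_lt_of_le one_pos H.hC
  set R : ℕ := ⌈2 * C₁ + 2⌉₊ with hR
  have hR1 : 2 * C₁ + 2 ≤ (R : ℝ) := Nat.le_ceil _
  have hR2 : (R : ℝ) < 2 * C₁ + 2 + 1 := Nat.ceil_lt_add_one (by linarith)
  have e1 : A k (Fo k (b JJ (L ζ))) =
      ∑ a ∈ A0 (r / ρ), A k (Fo k (b (JA (r / ρ) a) (L ζ))) := by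
    rw [JJ_eq (r / ρ) hσ, H.hb.biUnion _ _ (fun a _ => measurableSet_JA _ a)
      (fun a _ a' _ h => JA_disj _ h), sum_apply, map_sum, map_sum]
  rw [e1]
  refine (near_orth (A0 (r / ρ)) R ?_ _ ?_).trans ?_
  · have : (0 : ℝ) < R := by linarith
    exact_mod_cast this
  · intro a _ a' _ h
    rw [← piece_ins H k hk a ζ, ← piece_ins H k hk a' ζ]
    exact H.hc.orth (measurableSet_TT _ _ _) (measurableSet_TT _ _ _)
      (TT_disj C₁ (r / ρ) hσ hR1 h) _ _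
  · refine mul_le_mul_of_nonneg_right ?_ (Finset.sum_nonneg fun _ _ => by positivity)
    have := H.hC
    linarith

theorem QQ_disj (im ip : ι → ℤ → ℤ) (k : ι) (n : ℕ) {a a' : ℤ} (h : a ≠ a') :
    Disjoint (QQ a (im k a) (ip k a) n) (QQ a' (im k a') (ip k a') n) := by
  rw [Finset.disjoint_left]
  intro q hq hq'
  unfold QQ at hq hq'
  rw [Finset.mem_product, Finset.mem_Ico] at hq hq'
  have hp : (0 : ℤ) < 2 ^ n := by positivity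
  have h1 : 2 ^ n * a < 2 ^ n * (a' + 1) := lt_of_le_of_lt hq.1.1 hq'.1.2
  have h2 : 2 ^ n * a' < 2 ^ n * (a + 1) := lt_of_le_of_lt hq'.1.1 hq.1.2
  have h1' := lt_of_mul_lt_mul_left h1 hp.le
  have h2' := lt_of_mul_lt_mul_left h2 hp.le
  apply h; omega

/-- Bessel over all cells of one level -/
theorem level_sum (hN0 : 0 ≤ N) (im ip : ι → ℤ → ℤ) (n : ℕ) (w : K) :
    ∑ k ∈ S, ∑ a ∈ A0 (r / ρ), ∑ q ∈ QQ a (im k a) (ip k a) n,
      ‖A k (b (cell (r / ρ) r g n q) w)‖ ^ 2 ≤ N * ‖w‖ ^ 2 := by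
  classical
  set All : Finset (ℤ × ℤ) := S.biUnion fun k => (A0 (r / ρ)).biUnion fun a =>
    QQ a (im k a) (ip k a) n with hAll
  calc ∑ k ∈ S, ∑ a ∈ A0 (r / ρ), ∑ q ∈ QQ a (im k a) (ip k a) n,
      ‖A k (b (cell (r / ρ) r g n q) w)‖ ^ 2
      ≤ ∑ k ∈ S, ∑ q ∈ All, ‖A k (b (cell (r / ρ) r g n q) w)‖ ^ 2 := by
        refine Finset.sum_le_sum fun k hk => ?_
        rw [← Finset.sum_biUnion (fun a _ a' _ h => QQ_disj H im ip k n h)]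
        refine Finset.sum_le_sum_of_subset_of_nonneg ?_ (fun _ _ _ => by positivity)
        exact Finset.subset_biUnion_of_mem (fun k => (A0 (r / ρ)).biUnion fun a =>
          QQ a (im k a) (ip k a) n) hk
    _ = ∑ q ∈ All, ∑ k ∈ S, ‖A k (b (cell (r / ρ) r g n q) w)‖ ^ 2 := Finset.sum_comm
    _ ≤ ∑ q ∈ All, N * ‖b (cell (r / ρ) r g n q) w‖ ^ 2 :=
        Finset.sum_le_sum fun q _ => H.hN _
    _ = N * ∑ q ∈ All, ‖b (cell (r / ρ) r g n q) w‖ ^ 2 := by rw [Finset.mul_sum]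
    _ ≤ N * ‖w‖ ^ 2 := by
        refine mul_le_mul_of_nonneg_left ?_ hN0
        exact H.hb.bessel All _ (fun q _ => measurableSet_cell _ _ _ _ q)
          (fun q _ q' _ h => cell_disj _ _ _ _ h) w

theorem box_sum (im ip : ι → ℤ → ℤ) (k : ι) (w : K) :
    ∑ a ∈ A0 (r / ρ), ‖b (BB (r / ρ) r g a (im k a) (ip k a)) w‖ ^ 2 ≤ ‖w‖ ^ 2 := by
  refine H.hb.bessel (A0 (r / ρ)) _ (fun a _ => measurableSet_BB _ _ _ _ _ _)
    (fun a _ a' _ h => ?_) w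
  exact Set.disjoint_of_subset (BB_sub_JA H _ _ _) (BB_sub_JA H _ _ _) (JA_disj _ h)

theorem core_aux (hN0 : 0 ≤ N) (ζ : K) (T : ℕ) (hT : 1 / r ≤ 2 ^ T) :
    ∑ k ∈ S, ‖A k (Fo k (b JJ (L ζ)))‖ ^ 2 ≤
      2025 * C₁ ^ 4 * (T + 2) ^ 2 * N * ‖L ζ‖ ^ 2 := by
  have hC0 : 0 < C₁ := lt_of_lt_of_le one_pos H.hC
  have hρ : 0 < ρ := H.hr.trans_le H.hρ
  set w := L ζ with hw
  set im : ι → ℤ → ℤ := fun k a => imk C₁ r (r / ρ) g (y k) a with him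
  set ip : ι → ℤ → ℤ := fun k a => ipk C₁ r (r / ρ) g (y k) a with hip
  -- one piece
  have h1 : ∀ k ∈ S, ∀ a ∈ A0 (r / ρ), ‖A k (Fo k (b (JA (r / ρ) a) w))‖ ^ 2 ≤
      (T + 2 : ℝ) * (216 * C₁ ^ 3 * (∑ n ∈ Finset.range (T + 1), ∑ q ∈ QQ a (im k a) (ip k a) n,
          ‖A k (b (cell (r / ρ) r g n q) w)‖ ^ 2) +
        (3 * C₁ * (1 / 2) ^ T) ^ 2 * ‖b (BB (r / ρ) r g a (im k a) (ip k a)) w‖ ^ 2) := by
    intro k hk a _
    rw [piece_box H k hk a w]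
    refine (chain_one (r / ρ) r g (F k) a (im k a) (ip k a) b H.hb (3 * C₁)
      (by linarith [H.hC]) (H.hF1 k hk) (osc H k hk) (Fo k) (H.hFb k hk) (H.hFa k hk) (A k)
      (H.hA1 k hk) (imk_le C₁ r (r / ρ) H.hC g (y k) a) T w).trans ?_
    refine mul_le_mul_of_nonneg_left (add_le_add_left ?_ _) (by positivity)
    refine mul_le_mul_of_nonneg_right ?_
      (Finset.sum_nonneg fun _ _ => Finset.sum_nonneg fun _ _ => by positivity)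
    have := ipk_sub C₁ r (r / ρ) H.hC g (y k) a
    calc ((ip k a : ℝ) - im k a) * (4 * (3 * C₁) ^ 2) ≤ (6 * C₁) * (4 * (3 * C₁) ^ 2) :=
          mul_le_mul_of_nonneg_right this (by positivity)
      _ = 216 * C₁ ^ 3 := by ring
  -- one strip
  have h2 : ∀ k ∈ S, ‖A k (Fo k (b JJ w))‖ ^ 2 ≤
      9 * C₁ * ((T + 2 : ℝ) * (216 * C₁ ^ 3 * (∑ n ∈ Finset.range (T + 1), ∑ a ∈ A0 (r / ρ),
          ∑ q ∈ QQ a (im k a) (ip k a) n, ‖A k (b (cell (r / ρ) r g n q) w)‖ ^ 2) +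
        (3 * C₁ * (1 / 2) ^ T) ^ 2 * ‖w‖ ^ 2)) := by
    intro k hk
    refine (sum_pieces H k hk ζ).trans ?_
    refine mul_le_mul_of_nonneg_left ?_ (by positivity)
    refine (Finset.sum_le_sum (h1 k hk)).trans ?_
    rw [← Finset.mul_sum]
    refine mul_le_mul_of_nonneg_left ?_ (by positivity)
    rw [Finset.sum_add_distrib, ← Finset.mul_sum, ← Finset.mul_sum, Finset.sum_comm]
    exact add_le_add_right (mul_le_mul_of_nonneg_left (box_sum H im ip k w) (by positivity)) _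
  refine (Finset.sum_le_sum h2).trans ?_
  rw [← Finset.mul_sum, ← Finset.mul_sum, Finset.sum_add_distrib, ← Finset.mul_sum,
    Finset.sum_comm, Finset.sum_const, nsmul_eq_mul]
  have h3 : ∑ n ∈ Finset.range (T + 1), ∑ k ∈ S, ∑ a ∈ A0 (r / ρ),
      ∑ q ∈ QQ a (im k a) (ip k a) n, ‖A k (b (cell (r / ρ) r g n q) w)‖ ^ 2 ≤
      (T + 1 : ℝ) * (N * ‖w‖ ^ 2) := by
    refine (Finset.sum_le_sum fun n _ => level_sum H hN0 im ip n w).trans (le_of_eq ?_)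
    rw [Finset.sum_const, nsmul_eq_mul, Finset.card_range]; push_cast; ring
  have h4 : (S.card : ℝ) * ((3 * C₁ * (1 / 2) ^ T) ^ 2 * ‖w‖ ^ 2) ≤ 9 * C₁ ^ 3 * N * ‖w‖ ^ 2 := by
    have hq : (ρ / r) ≤ 2 ^ T := by
      refine le_trans ?_ hT
      exact div_le_div_of_nonneg_right H.hρ1 H.hr.le
    have hr0 := H.hr
    have hq0 : 0 ≤ ρ / r := by positivity
    have hq2 : (ρ / r) ^ 2 * ((1 / 2) ^ T) ^ 2 ≤ 1 := by
      rw [← mul_pow]
      have : ρ / r * (1 / 2) ^ T ≤ 1 := by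
        have e : (1 / 2 : ℝ) ^ T = 1 / 2 ^ T := by rw [div_pow, one_pow]
        rw [e, mul_one_div, div_le_one (by positivity)]; exact hq
      exact pow_le_one₀ (by positivity) this
    have hw0 : 0 ≤ ‖w‖ ^ 2 := by positivity
    calc (S.card : ℝ) * ((3 * C₁ * (1 / 2) ^ T) ^ 2 * ‖w‖ ^ 2)
        ≤ (C₁ * N * (ρ / r) ^ 2) * ((3 * C₁ * (1 / 2) ^ T) ^ 2 * ‖w‖ ^ 2) :=
          mul_le_mul_of_nonneg_right H.hS (by positivity)
      _ = (9 * C₁ ^ 3 * N * ‖w‖ ^ 2) * ((ρ / r) ^ 2 * ((1 / 2) ^ T) ^ 2) := by ring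
      _ ≤ (9 * C₁ ^ 3 * N * ‖w‖ ^ 2) * 1 :=
          mul_le_mul_of_nonneg_left hq2 (by positivity)
      _ = _ := by ring
  have hT0 : (0 : ℝ) ≤ T := by positivity
  calc 9 * C₁ * ((T + 2 : ℝ) * (216 * C₁ ^ 3 * (∑ n ∈ Finset.range (T + 1), ∑ k ∈ S,
        ∑ a ∈ A0 (r / ρ), ∑ q ∈ QQ a (im k a) (ip k a) n,
          ‖A k (b (cell (r / ρ) r g n q) w)‖ ^ 2) +
        (S.card : ℝ) * ((3 * C₁ * (1 / 2) ^ T) ^ 2 * ‖w‖ ^ 2)))
      ≤ 9 * C₁ * ((T + 2 : ℝ) * (216 * C₁ ^ 3 * ((T + 1 : ℝ) * (N * ‖w‖ ^ 2)) +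
        9 * C₁ ^ 3 * N * ‖w‖ ^ 2)) := by
        refine mul_le_mul_of_nonneg_left (mul_le_mul_of_nonneg_left (add_le_add
          (mul_le_mul_of_nonneg_left h3 (by positivity)) h4) (by positivity)) (by positivity)
    _ = C₁ ^ 4 * N * ‖w‖ ^ 2 * ((T + 2) * (1944 * (T + 1) + 81)) := by ring
    _ ≤ C₁ ^ 4 * N * ‖w‖ ^ 2 * (2025 * (T + 2) ^ 2) := by
        refine mul_le_mul_of_nonneg_left ?_ (by positivity)
        nlinarith
    _ = _ := by ring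

omit H in
/-- **(K1)** -/
theorem core : CoreStmt := by
  intro K _ _ _ ι C₁ b c L r ρ g S y A Fo F N H ζ
  have hC0 : 0 < C₁ := lt_of_lt_of_le one_pos H.hC
  by_cases hN0 : 0 ≤ N
  · have hr1 : r ≤ 1 := H.hρ.trans H.hρ1
    have hx1 : 1 ≤ 1 / r := by rw [le_div_iff₀ H.hr]; linarith
    have hlog0 : 0 ≤ Real.log (1 / r) := Real.log_nonneg hx1
    have hl0 : 0 ≤ Real.logb 2 (1 / r) := Real.logb_nonneg one_lt_two hx1
    set T : ℕ := ⌈Real.logb 2 (1 / r)⌉₊ with hT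
    have hT1 : Real.logb 2 (1 / r) ≤ T := Nat.le_ceil _
    have hT2 : (T : ℝ) < Real.logb 2 (1 / r) + 1 := Nat.ceil_lt_add_one hl0
    have hT3 : 1 / r ≤ 2 ^ T := by
      have := (Real.logb_le_iff_le_rpow one_lt_two (by positivity : (0 : ℝ) < 1 / r)).1 hT1
      rwa [Real.rpow_natCast] at this
    refine (core_aux H hN0 ζ T hT3).trans ?_
    have hlb : Real.logb 2 (1 / r) ≤ 3 * Real.log (1 / r) := by
      unfold Real.logb
      have h2 : (1 / 3 : ℝ) ≤ Real.log 2 := by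
        have := Real.log_two_gt_d9; linarith
      rw [div_le_iff₀ (by linarith)]
      nlinarith
    have hT4 : (T : ℝ) + 2 ≤ 3 * (1 + Real.log (1 / r)) := by linarith
    have hT5 : ((T : ℝ) + 2) ^ 2 ≤ 9 * (1 + Real.log (1 / r)) ^ 2 := by
      calc ((T : ℝ) + 2) ^ 2 ≤ (3 * (1 + Real.log (1 / r))) ^ 2 :=
            pow_le_pow_left₀ (by positivity) hT4 2
        _ = _ := by ring
    have hw0 : 0 ≤ ‖L ζ‖ ^ 2 := by positivity
    have hC4 : C₁ ^ 4 ≤ C₁ ^ 5 := pow_le_pow_right₀ H.hC (by norm_num)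
    have hC4' : 0 < C₁ ^ 4 := by positivity
    unfold coreC
    calc 2025 * C₁ ^ 4 * (T + 2) ^ 2 * N * ‖L ζ‖ ^ 2
        = (2025 * C₁ ^ 4 * N * ‖L ζ‖ ^ 2) * ((T : ℝ) + 2) ^ 2 := by ring
      _ ≤ (2025 * C₁ ^ 4 * N * ‖L ζ‖ ^ 2) * (9 * (1 + Real.log (1 / r)) ^ 2) :=
          mul_le_mul_of_nonneg_left hT5 (by positivity)
      _ = (18225 * C₁ ^ 4) * (N * (1 + Real.log (1 / r)) ^ 2 * ‖L ζ‖ ^ 2) := by ring
      _ ≤ (10 ^ 5 * C₁ ^ 5) * (N * (1 + Real.log (1 / r)) ^ 2 * ‖L ζ‖ ^ 2) := by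
          refine mul_le_mul_of_nonneg_right ?_ (by positivity)
          nlinarith
      _ = _ := by ring
  · have hz : ∀ v : K, v = 0 := by
      intro v
      have h1 := H.hN v
      have h2 : (0 : ℝ) ≤ ∑ k ∈ S, ‖A k v‖ ^ 2 := Finset.sum_nonneg fun _ _ => by positivity
      have h3 : N < 0 := not_le.1 hN0
      have h4 : 0 ≤ ‖v‖ ^ 2 := by positivity
      have h5 : ‖v‖ ^ 2 = 0 := by nlinarith
      exact norm_eq_zero.1 (pow_eq_zero_iff (two_ne_zero) |>.1 h5)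
    have e1 : ∀ k, ‖A k (Fo k (b JJ (L ζ)))‖ ^ 2 = 0 := fun k => by
      rw [hz (A k (Fo k (b JJ (L ζ))))]; simp
    rw [Finset.sum_congr rfl (fun k _ => e1 k), hz (L ζ)]
    simp

end Vale.Agent.P092.H673
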