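import Mathlib

/-!
# (K1) of the Kakeya lemma (K'): frozen statement (letters of helper175 #4707)

`b`, `c` : finitely additive projection valued families on Borel sets of the `(h,p)`-plane.
`A k` = `λ_m (box around y_k)` (any contraction), `L` = `λ_l (g')`.
-/

noncomputable section

open Set

namespace Vale.Agent.P092.H673

variable {K : Type*} [NormedAddCommGroup K] [InnerProductSpace ℂ K] [CompleteSpace K]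

/-- finitely additive projection valued family (not unital) -/
def PV (P : Set (ℝ × ℝ) → (K →L[ℂ] K)) : Prop :=
  (∀ s, MeasurableSet s → star (P s) = P s) ∧
  (∀ s t, MeasurableSet s → MeasurableSet t → P (s ∩ t) = P s * P t) ∧
  (∀ s t, MeasurableSet s → MeasurableSet t → Disjoint s t → P (s ∪ t) = P s + P t)

/-- `|p| ≤ 1` -/
def JJ : Set (ℝ × ℝ) := {x | |x.2| ≤ 1}

/-- the strip of half width `w` around the line `y` over `|p| ≤ 1` -/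
def strip (y : ℝ × ℝ) (w : ℝ) : Set (ℝ × ℝ) := {x | |x.1 - (y.1 + y.2 * x.2)| ≤ w ∧ |x.2| ≤ 1}

/-- the hypotheses of (K1) -/
structure CoreHyp {ι : Type*} (C₁ : ℝ) (b c : Set (ℝ × ℝ) → (K →L[ℂ] K)) (L : K →L[ℂ] K)
    (r ρ : ℝ) (g : ℝ × ℝ) (S : Finset ι) (y : ι → ℝ × ℝ) (A Fo : ι → (K →L[ℂ] K))
    (F : ι → ℝ × ℝ → ℂ) (N : ℝ) : Prop where
  hC : 1 ≤ C₁
  hb : PV b
  hc : PV c
  hbL : ∀ s, MeasurableSet s → b s * L = L * b s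
  hr : 0 < r
  hρ : r ≤ ρ
  hρ1 : ρ ≤ 1
  hy : ∀ k ∈ S, |(y k).2 - g.2| ≤ ρ
  hA1 : ∀ k ∈ S, ∀ ζ, ‖A k ζ‖ ≤ ‖ζ‖
  hN : ∀ ζ, ∑ k ∈ S, ‖A k ζ‖ ^ 2 ≤ N * ‖ζ‖ ^ 2
  /-- counting -/
  hS : (S.card : ℝ) ≤ C₁ * N * (ρ / r) ^ 2
  /-- insertion of `c`: `z` is within `C₁ r / ρ` of `x` in the `p`-coordinate -/
  hins : ∀ k ∈ S, ∀ s t, MeasurableSet s → MeasurableSet t → s ⊆ strip (y k) (C₁ * r) →
    (∀ x ∈ s, ∀ z : ℝ × ℝ, |x.2 - z.2| ≤ C₁ * (r / ρ) → z ∈ t) →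
    c t * (A k * (L * b s)) = A k * (L * b s)
  /-- `Fo k = β_b (F k)` -/
  hFb : ∀ k ∈ S, ∀ s, MeasurableSet s → Fo k * b s = b s * Fo k
  hFL : ∀ k ∈ S, Fo k * L = L * Fo k
  hFa : ∀ k ∈ S, ∀ s, MeasurableSet s → s ⊆ JJ → ∀ (a : ℂ) (δ : ℝ),
    (∀ x ∈ s, ‖F k x - a‖ ≤ δ) → ∀ ζ, ‖Fo k (b s ζ) - a • b s ζ‖ ≤ δ * ‖b s ζ‖
  hF0 : ∀ k ∈ S, ∀ x ∈ JJ, x ∉ strip (y k) (C₁ * r) → F k x = 0
  hF1 : ∀ k ∈ S, ∀ x ∈ JJ, ‖F k x‖ ≤ 1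
  hFl : ∀ k ∈ S, ∀ x ∈ JJ, ∀ x' ∈ JJ, ‖F k x - F k x'‖ ≤
    C₁ * (|(x.1 - ((y k).1 + (y k).2 * x.2)) - (x'.1 - ((y k).1 + (y k).2 * x'.2))| / r
      + |x.2 - x'.2|)

/-- the constant of (K1) -/
def coreC (C₁ : ℝ) : ℝ := 10 ^ 5 * C₁ ^ 5

/-- (K1) -/
def CoreStmt.{u, v} : Prop :=
  ∀ {K : Type u} [NormedAddCommGroup K] [InnerProductSpace ℂ K] [CompleteSpace K] {ι : Type v}
    (C₁ : ℝ) (b c : Set (ℝ × ℝ) → (K →L[ℂ] K)) (L : K →L[ℂ] K)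
    (r ρ : ℝ) (g : ℝ × ℝ) (S : Finset ι) (y : ι → ℝ × ℝ) (A Fo : ι → (K →L[ℂ] K))
    (F : ι → ℝ × ℝ → ℂ) (N : ℝ), CoreHyp C₁ b c L r ρ g S y A Fo F N → ∀ ζ,
    ∑ k ∈ S, ‖A k (Fo k (b JJ (L ζ)))‖ ^ 2 ≤
      coreC C₁ * N * (1 + Real.log (1 / r)) ^ 2 * ‖L ζ‖ ^ 2

end Vale.Agent.P092.H673
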