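import Vale.Agent.P092.H673.CoreDef

noncomputable section

open Set

namespace Vale.Agent.P092.H673

variable {K : Type*} [NormedAddCommGroup K] [InnerProductSpace ℂ K] [CompleteSpace K]

namespace PV

variable {P : Set (ℝ × ℝ) → (K →L[ℂ] K)} (hP : PV P)
include hP

theorem empty : P ∅ = 0 := by
  have h := hP.2.2 ∅ ∅ MeasurableSet.empty MeasurableSet.empty (by simp)
  simp only [Set.union_self] at h
  have : P ∅ + 0 = P ∅ + P ∅ := by rw [add_zero]; exact h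
  exact (add_left_cancel this).symm

theorem mul {s t : Set (ℝ × ℝ)} (hs : MeasurableSet s) (ht : MeasurableSet t) :
    P s * P t = P (s ∩ t) := (hP.2.1 s t hs ht).symm

theorem idem {s : Set (ℝ × ℝ)} (hs : MeasurableSet s) : P s * P s = P s := by
  rw [hP.mul hs hs, Set.inter_self]

theorem disj {s t : Set (ℝ × ℝ)} (hs : MeasurableSet s) (ht : MeasurableSet t)
    (h : Disjoint s t) : P s * P t = 0 := by
  rw [hP.mul hs ht, h.inter_eq, hP.empty]

theorem sub_mul {s t : Set (ℝ × ℝ)} (hs : MeasurableSet s) (ht : MeasurableSet t)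
    (h : s ⊆ t) : P s * P t = P s := by
  rw [hP.mul hs ht, Set.inter_eq_left.2 h]

theorem mul_sub {s t : Set (ℝ × ℝ)} (hs : MeasurableSet s) (ht : MeasurableSet t)
    (h : s ⊆ t) : P t * P s = P s := by
  rw [hP.mul ht hs, Set.inter_eq_right.2 h]

theorem inner_left {s : Set (ℝ × ℝ)} (hs : MeasurableSet s) (v w : K) :
    inner ℂ (P s v) w = inner ℂ v (P s w) := by
  have h := hP.1 s hs
  rw [ContinuousLinearMap.star_eq_adjoint] at h
  conv_lhs => rw [← h]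
  rw [ContinuousLinearMap.adjoint_inner_left]

theorem apply2 {s t : Set (ℝ × ℝ)} (hs : MeasurableSet s) (ht : MeasurableSet t) (v : K) :
    P s (P t v) = P (s ∩ t) v := by
  rw [← hP.mul hs ht]; rfl

theorem orth {s t : Set (ℝ × ℝ)} (hs : MeasurableSet s) (ht : MeasurableSet t)
    (h : Disjoint s t) (v w : K) : inner ℂ (P s v) (P t w) = 0 := by
  rw [hP.inner_left hs, hP.apply2 hs ht, h.inter_eq, hP.empty]
  simp

theorem normSq {s : Set (ℝ × ℝ)} (hs : MeasurableSet s) (v : K) :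
    ‖P s v‖ ^ 2 = RCLike.re (inner ℂ (P s v) v) := by
  have h1 : inner ℂ (P s v) (P s v) = inner ℂ (P s v) v := by
    rw [hP.inner_left hs, hP.apply2 hs hs, Set.inter_self, ← hP.inner_left hs]
  rw [← h1, inner_self_eq_norm_sq]

theorem norm_le {s : Set (ℝ × ℝ)} (hs : MeasurableSet s) (v : K) : ‖P s v‖ ≤ ‖v‖ := by
  have h := hP.normSq hs v
  have h2 : RCLike.re (inner ℂ (P s v) v) ≤ ‖P s v‖ * ‖v‖ := re_inner_le_norm _ _
  rcases eq_or_lt_of_le (norm_nonneg (P s v)) with h0 | h0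
  · rw [← h0]; exact norm_nonneg v
  · have : ‖P s v‖ * ‖P s v‖ ≤ ‖P s v‖ * ‖v‖ := by nlinarith
    exact le_of_mul_le_mul_left this h0

theorem biUnion {κ : Type*} (Q : Finset κ) (s : κ → Set (ℝ × ℝ))
    (hs : ∀ q ∈ Q, MeasurableSet (s q))
    (hd : ∀ q ∈ Q, ∀ q' ∈ Q, q ≠ q' → Disjoint (s q) (s q')) :
    P (⋃ q ∈ Q, s q) = ∑ q ∈ Q, P (s q) := by
  classical
  induction Q using Finset.induction_on with
  | empty => simp [hP.empty]
  | insert a Q ha ih =>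
    rw [Finset.set_biUnion_insert, Finset.sum_insert ha]
    rw [hP.2.2 _ _ (hs a (Finset.mem_insert_self a Q))
      (Finset.measurableSet_biUnion Q fun q hq => hs q (Finset.mem_insert_of_mem hq))]
    · rw [ih (fun q hq => hs q (Finset.mem_insert_of_mem hq))
        (fun q hq q' hq' h => hd q (Finset.mem_insert_of_mem hq) q' (Finset.mem_insert_of_mem hq') h)]
    · rw [Set.disjoint_iUnion₂_right]
      intro q hq
      exact hd a (Finset.mem_insert_self a Q) q (Finset.mem_insert_of_mem hq)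
        (fun h => ha (h ▸ hq))

/-- Pythagoras -/
theorem sum_normSq {κ : Type*} (Q : Finset κ) (s : κ → Set (ℝ × ℝ))
    (hs : ∀ q ∈ Q, MeasurableSet (s q))
    (hd : ∀ q ∈ Q, ∀ q' ∈ Q, q ≠ q' → Disjoint (s q) (s q')) (v : K) :
    ∑ q ∈ Q, ‖P (s q) v‖ ^ 2 = ‖P (⋃ q ∈ Q, s q) v‖ ^ 2 := by
  rw [hP.normSq (Finset.measurableSet_biUnion Q hs), hP.biUnion Q s hs hd]
  rw [ContinuousLinearMap.sum_apply, sum_inner, map_sum]
  exact Finset.sum_congr rfl fun q hq => hP.normSq (hs q hq) v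

theorem bessel {κ : Type*} (Q : Finset κ) (s : κ → Set (ℝ × ℝ))
    (hs : ∀ q ∈ Q, MeasurableSet (s q))
    (hd : ∀ q ∈ Q, ∀ q' ∈ Q, q ≠ q' → Disjoint (s q) (s q')) (v : K) :
    ∑ q ∈ Q, ‖P (s q) v‖ ^ 2 ≤ ‖v‖ ^ 2 := by
  rw [hP.sum_normSq Q s hs hd]
  exact pow_le_pow_left₀ (norm_nonneg _) (hP.norm_le (Finset.measurableSet_biUnion Q hs) v) 2

/-- norm of a combination of orthogonal pieces -/
theorem norm_comb {κ : Type*} (Q : Finset κ) (s : κ → Set (ℝ × ℝ))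
    (hs : ∀ q ∈ Q, MeasurableSet (s q))
    (hd : ∀ q ∈ Q, ∀ q' ∈ Q, q ≠ q' → Disjoint (s q) (s q')) (w : κ → K) :
    ‖∑ q ∈ Q, P (s q) (w q)‖ ^ 2 = ∑ q ∈ Q, ‖P (s q) (w q)‖ ^ 2 := by
  classical
  rw [← @inner_self_eq_norm_sq ℂ, sum_inner, map_sum]
  refine Finset.sum_congr rfl fun q hq => ?_
  rw [inner_sum, map_sum, Finset.sum_eq_single q]
  · rw [inner_self_eq_norm_sq]
  · intro q' hq' hne
    rw [hP.orth (hs q hq) (hs q' hq') (hd q hq q' hq' hne.symm)]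
    simp
  · intro h; exact absurd hq h

end PV

/-- almost orthogonal families indexed by integers -/
theorem near_orth (A : Finset ℤ) (R : ℕ) (hR : 1 ≤ R) (v : ℤ → K)
    (h : ∀ a ∈ A, ∀ a' ∈ A, (R : ℤ) ≤ |a - a'| → inner ℂ (v a) (v a') = 0) :
    ‖∑ a ∈ A, v a‖ ^ 2 ≤ (2 * R - 1 : ℝ) * ∑ a ∈ A, ‖v a‖ ^ 2 := by
  classical
  have hcard : ∀ a : ℤ, ((A.filter fun a' => |a - a'| < (R : ℤ)).card : ℝ) ≤ 2 * R - 1 := by
    intro a
    have hsub : (A.filter fun a' => |a - a'| < (R : ℤ)) ⊆ Finset.Ioo (a - R) (a + R) := by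
      intro a' ha'
      rw [Finset.mem_filter] at ha'
      rw [Finset.mem_Ioo]
      have := abs_lt.1 ha'.2
      constructor <;> omega
    have h1 := Finset.card_le_card hsub
    rw [Int.card_Ioo] at h1
    have h2 : ((a + R - (a - R) - 1 : ℤ)).toNat = 2 * R - 1 := by omega
    rw [h2] at h1
    have h3 : ((A.filter fun a' => |a - a'| < (R : ℤ)).card : ℝ) ≤ ((2 * R - 1 : ℕ) : ℝ) := by
      exact_mod_cast h1
    refine h3.trans (le_of_eq ?_)
    rw [Nat.cast_sub (by omega)]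
    push_cast
    ring
  have hs : ∀ a ∈ A, RCLike.re (inner ℂ (v a) (∑ a' ∈ A, v a')) ≤
      ∑ a' ∈ A.filter (fun a' => |a - a'| < (R : ℤ)), (‖v a‖ ^ 2 + ‖v a'‖ ^ 2) / 2 := by
    intro a ha
    rw [inner_sum, map_sum, ← Finset.sum_filter_add_sum_filter_not A (fun a' => |a - a'| < (R : ℤ))]
    have hz : ∑ a' ∈ A.filter (fun a' => ¬ |a - a'| < (R : ℤ)), RCLike.re (inner ℂ (v a) (v a')) = 0 := by
      refine Finset.sum_eq_zero fun a' ha' => ?_
      rw [Finset.mem_filter] at ha'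
      rw [h a ha a' ha'.1 (not_lt.1 ha'.2)]
      simp
    rw [hz, add_zero]
    refine Finset.sum_le_sum fun a' _ => ?_
    have h1 : RCLike.re (inner ℂ (v a) (v a')) ≤ ‖v a‖ * ‖v a'‖ := re_inner_le_norm _ _
    nlinarith [sq_nonneg (‖v a‖ - ‖v a'‖)]
  rw [← @inner_self_eq_norm_sq ℂ, sum_inner, map_sum]
  calc ∑ a ∈ A, RCLike.re (inner ℂ (v a) (∑ a' ∈ A, v a'))
      ≤ ∑ a ∈ A, ∑ a' ∈ A.filter (fun a' => |a - a'| < (R : ℤ)), (‖v a‖ ^ 2 + ‖v a'‖ ^ 2) / 2 :=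
        Finset.sum_le_sum hs
    _ = ∑ a ∈ A, ∑ a' ∈ A.filter (fun a' => |a - a'| < (R : ℤ)), ‖v a‖ ^ 2 / 2 +
        ∑ a ∈ A, ∑ a' ∈ A.filter (fun a' => |a - a'| < (R : ℤ)), ‖v a'‖ ^ 2 / 2 := by
        rw [← Finset.sum_add_distrib]
        refine Finset.sum_congr rfl fun a _ => ?_
        rw [← Finset.sum_add_distrib]
        refine Finset.sum_congr rfl fun a' _ => ?_
        ring
    _ = ∑ a ∈ A, ∑ a' ∈ A.filter (fun a' => |a - a'| < (R : ℤ)), ‖v a‖ ^ 2 / 2 +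
        ∑ a ∈ A, ∑ a' ∈ A.filter (fun a' => |a - a'| < (R : ℤ)), ‖v a‖ ^ 2 / 2 := by
        congr 1
        simp only [Finset.sum_filter]
        rw [Finset.sum_comm]
        refine Finset.sum_congr rfl fun a _ => ?_
        refine Finset.sum_congr rfl fun a' _ => ?_
        rw [abs_sub_comm]
    _ ≤ (2 * R - 1 : ℝ) * ∑ a ∈ A, ‖v a‖ ^ 2 := by
        rw [← two_mul, Finset.mul_sum, Finset.mul_sum]
        refine Finset.sum_le_sum fun a _ => ?_
        rw [Finset.sum_const, nsmul_eq_mul]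
        have := hcard a
        nlinarith [sq_nonneg ‖v a‖]

end Vale.Agent.P092.H673
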